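/-
Row 210 (S0432), layer EV (discrete EVI for the L2 resolvent, W2-contraction of the heat flow): DEFINITIONS.
Architects: helper948 (Ifc, EV2, EV2', EV3), helper73 (EV1, EV1': files EV/Static*.lean).   These definitions were written by helper73.
Proof text: `git show origin/helper928:docs/R210_partZ.md` (last section), `git show origin/helper73:docs/R210_EV.md`.
-/
import Claimed.Agent.R210.Defs
import Claimed.Agent.R210.Defs2

set_option autoImplicit false

open Claims.C0366 Claims.C0366.WeakHessian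
open Set Filter MeasureTheory
open scoped ENNReal NNReal Topology

namespace Claimed.Agent.R210.EV.Defs

open Claimed.Agent.R210.Defs Claimed.Agent.R210.Defs2

noncomputable section

variable {X : Type*} [MetricSpace X] [MeasurableSpace X] [BorelSpace X]

/-- `f` is a probability density w.r.t. `m`, bounded by `B`, vanishing a.e. outside `closedBall o R`. -/
structure ev_BS (m : Measure X) (o : X) (R B : ℝ) (f : X → ℝ) : Prop where
  meas : AEStronglyMeasurable f m
  nonneg : ∀ᵐ x ∂m, 0 ≤ f x
  le : ∀ᵐ x ∂m, f x ≤ B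
  supp : ∀ᵐ x ∂m, x ∉ Metric.closedBall o R → f x = 0
  mass : ∫ x, f x ∂m = 1

/-- mass of the density `ρ` in `closedBall o r` -/
def ev_mass (m : Measure X) (o : X) (ρ : X → ℝ) (r : ℝ) : ℝ :=
  ∫ x in Metric.closedBall o r, ρ x ∂m

/-- normalised restriction of the density `ρ` to `closedBall o r` -/
def ev_trunc (m : Measure X) (o : X) (ρ : X → ℝ) (r : ℝ) (x : X) : ℝ :=
  (Metric.closedBall o r).indicator ρ x / ev_mass m o ρ r

/-- the reference density `θ = c e^{-3 a d(.,o)}` (positive, Lipschitz, nice) -/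
def ev_theta (m : Measure X) (o : X) (a : ℝ) (x : X) : ℝ :=
  Real.exp (-(3 * a) * dist x o) / ∫ y, Real.exp (-(3 * a) * dist y o) ∂m

/-- the perturbed density `(1-η) ρ + η θ` -/
def ev_pert (m : Measure X) (o : X) (a η : ℝ) (ρ : X → ℝ) (x : X) : ℝ :=
  (1 - η) * ρ x + η * ev_theta m o a x

/-- `ρ` is essentially bounded below by a positive constant on every ball -/
def ev_LocPos (m : Measure X) (o : X) (ρ : X → ℝ) : Prop :=
  ∀ r : ℝ, ∃ c : ℝ, 0 < c ∧ ∀ᵐ x ∂m, x ∈ Metric.closedBall o r → c ≤ ρ x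

/-- the `C¹` function equal to `log` on `[c,∞)` and affine on `(-∞,c]` -/
def ev_logc (c z : ℝ) : ℝ := if c ≤ z then Real.log z else Real.log c + (z - c) / c

/-- derivative of `ev_logc c` -/
def ev_logc' (c z : ℝ) : ℝ := if c ≤ z then z⁻¹ else c⁻¹

/-- nice density, frozen Sobolev, with an exponentially weighted `L²` bound of the weak gradient -/
structure ev_Good (m : Measure X) (o : X) (a B : ℝ) (ρ : X → ℝ) : Prop where
  nice : NiceDens m o a B ρ
  sob : Sobolev m ρ
  grad : Integrable (fun x => Real.exp (2 * a * dist x o) * (weakGradient m ρ x) ^ 2) m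

/-- the weighted `L²` tail quantity `∫ e^{2 a d(.,o)} ρ²` -/
def ev_tail (m : Measure X) (o : X) (a : ℝ) (ρ : X → ℝ) : ℝ :=
  ∫ x, Real.exp (2 * a * dist x o) * ρ x ^ 2 ∂m

/-- the `k`-th resolvent iterate in `L²(m)` -/
def ev_iter (m : Measure X) (δ : ℝ) (k : ℕ) (u : Lp ℝ 2 m) : Lp ℝ 2 m :=
  (HS.Defs.prox (ChL2 m) δ)^[k] u

end

end Claimed.Agent.R210.EV.Defs
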