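/-
Row 210 (S0432), layer EV: elementary facts on nice densities (measure theory only, no upstream layer).      Architect helper948.
`ζ = d(·,o)`.   `NiceDens m o a B ρ` : a.e. measurable, `0 ≤ ρ ≤ B` a.e., integrable, `∫ ρ = 1`, `e^{2aζ} ρ²` integrable.   `GoodExp m o a` : `0 < a`, `e^{-(a/4)ζ}` integrable.
`dens m ρ = m.withDensity (fun x => ENNReal.ofReal (ρ x))`,  `entF m ρ = ∫ ρ log ρ dm`,  `Ent m μ = ∫ r log r dm`, `r = (μ.rnDeriv m).toReal`,  `ev_tail m o a ρ = ∫ e^{2aζ} ρ² dm`.
Leaves: every `sorry` of this file is an independent leaf; earlier statements of the file may be used as black boxes.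
-/
import Claimed.Agent.R210.EV.Defs
import Claimed.Agent.R210.CD.Ent.Base

set_option autoImplicit false

open Claims.C0366 Claims.C0366.WeakHessian
open Set Filter MeasureTheory
open scoped ENNReal NNReal Topology

namespace Claimed.Agent.R210.EV.Basic

open Claimed.Agent.R210.Defs Claimed.Agent.R210.Defs2 Claimed.Agent.R210.EV.Defs

variable {X : Type*} [MetricSpace X] [MeasurableSpace X] [BorelSpace X]
variable {m : Measure X} {a B B' R c T : ℝ} {o : X} {ρ ρ' u : X → ℝ}

/-! ### part a: `dens` -/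

theorem ev_nice_mono (h : NiceDens m o a B ρ) (hB : B ≤ B') : NiceDens m o a B' ρ :=
  ⟨h.meas, h.nonneg, h.le.mono fun _ hx => hx.trans hB, h.int, h.mass, h.tail⟩

/-- (`withDensity_congr_ae`.) -/
theorem ev_dens_congr (h : ρ =ᵐ[m] ρ') : dens m ρ = dens m ρ' := by
  unfold dens
  exact withDensity_congr_ae (h.mono fun x hx => by simp only [hx])

/-- `∫ φ d(ρ m) = ∫ φ ρ dm`, no assumption on `φ`  (`integral_withDensity_eq_integral_toReal_smul₀`, `ENNReal.toReal_ofReal` a.e.). -/
theorem ev_integral_dens (hm : AEStronglyMeasurable ρ m) (h0 : ∀ᵐ x ∂m, 0 ≤ ρ x) (φ : X → ℝ) :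
    ∫ x, φ x ∂(dens m ρ) = ∫ x, φ x * ρ x ∂m := by
  unfold dens
  rw [integral_withDensity_eq_integral_toReal_smul₀ hm.aemeasurable.ennreal_ofReal
    (Eventually.of_forall fun x => ENNReal.ofReal_lt_top)]
  refine integral_congr_ae (h0.mono fun x hx => ?_)
  simp only [ENNReal.toReal_ofReal hx, smul_eq_mul, mul_comm]

/-- (`integrable_withDensity_iff_integrable_smul₀'`.) -/
theorem ev_integrable_dens_iff (hm : AEStronglyMeasurable ρ m) (h0 : ∀ᵐ x ∂m, 0 ≤ ρ x) (φ : X → ℝ) :
    Integrable φ (dens m ρ) ↔ Integrable (fun x => φ x * ρ x) m := by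
  unfold dens
  rw [integrable_withDensity_iff_integrable_smul₀' hm.aemeasurable.ennreal_ofReal
    (Eventually.of_forall fun x => ENNReal.ofReal_lt_top)]
  refine integrable_congr (h0.mono fun x hx => ?_)
  simp only [ENNReal.toReal_ofReal hx, smul_eq_mul, mul_comm]

/-- `(ρ m)(X) = ∫⁻ ofReal ρ = ofReal (∫ ρ) = 1`  (`withDensity_apply`, `ofReal_integral_eq_lintegral_ofReal`). -/
theorem ev_dens_prob (h : NiceDens m o a B ρ) : IsProbabilityMeasure (dens m ρ) := by
  constructor
  unfold dens
  rw [withDensity_apply _ MeasurableSet.univ, Measure.restrict_univ,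
    ← ofReal_integral_eq_lintegral_ofReal h.int h.nonneg, h.mass, ENNReal.ofReal_one]

/-- `rnDeriv (ρ m) m = ofReal ρ` a.e. (`Measure.rnDeriv_withDensity₀`, `SigmaFinite m` from `CD.Ent.Base.cd_ent_sigmaFinite`);  `integral_congr_ae`. -/
theorem ev_Ent_dens (hfin : FiniteOnBoundedSets m) (hm : AEStronglyMeasurable ρ m) (h0 : ∀ᵐ x ∂m, 0 ≤ ρ x) :
    Ent m (dens m ρ) = entF m ρ := by
  haveI : SigmaFinite m := CD.Ent.Base.cd_ent_sigmaFinite hfin
  unfold Ent entF rho dens
  have h1 := Measure.rnDeriv_withDensity₀ m hm.aemeasurable.ennreal_ofReal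
  refine integral_congr_ae ?_
  filter_upwards [h1, h0] with x hx hx0
  rw [hx, ENNReal.toReal_ofReal hx0]

/-- `ρ m ≤ B m`, `(ρ m)(B_R^c) = 0`, mass `1`. -/
theorem ev_BS_bddDens (h : ev_BS m o R B ρ) : BddDens m (dens m ρ) (Real.toNNReal B) o R := by
  have hint : Integrable ρ m := integrable_of_integral_eq_one h.mass
  refine ⟨⟨?_⟩, ?_, ?_⟩
  · unfold dens
    rw [withDensity_apply _ MeasurableSet.univ, Measure.restrict_univ,
      ← ofReal_integral_eq_lintegral_ofReal hint h.nonneg, h.mass, ENNReal.ofReal_one]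
  · unfold dens
    rw [← withDensity_const]
    refine withDensity_mono (h.le.mono fun x hx => ?_)
    exact ENNReal.ofReal_le_ofReal hx
  · unfold dens
    rw [withDensity_apply _ Metric.isClosed_closedBall.measurableSet.compl]
    rw [lintegral_eq_zero_iff' hint.aemeasurable.ennreal_ofReal.restrict]
    rw [Filter.EventuallyEq, ae_restrict_iff' Metric.isClosed_closedBall.measurableSet.compl]
    refine h.supp.mono fun x hx hxs => ?_
    simp [hx hxs]

theorem ev_meas_exp_dist (c : ℝ) (o : X) : Measurable (fun x : X => Real.exp (c * dist x o)) :=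
  (Real.continuous_exp.comp (continuous_const.mul (continuous_id.dist continuous_const))).measurable

/-- a bounded density with bounded support is nice for every exponent
(`ρ ≤ B 1_{B_R}`, `e^{2aζ} ρ² ≤ e^{2|a|R} B² 1_{B_R}` a.e.; `m B_R < ∞`). -/
theorem ev_cpt_nice (hfin : FiniteOnBoundedSets m) (h : ev_BS m o R B ρ) (a : ℝ) : NiceDens m o a B ρ := by
  have hint : Integrable ρ m := integrable_of_integral_eq_one h.mass
  refine ⟨h.meas, h.nonneg, h.le, hint, h.mass, ?_⟩
  have hfinB : m (Metric.closedBall o R) < ∞ := hfin _ Metric.isBounded_closedBall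
  have hg : Integrable ((Metric.closedBall o R).indicator
      (fun _ : X => Real.exp (2 * |a| * R) * B ^ 2)) m := by
    rw [integrable_indicator_iff Metric.isClosed_closedBall.measurableSet]
    exact integrableOn_const hfinB.ne
  refine hg.mono' ((ev_meas_exp_dist (2 * a) o).aestronglyMeasurable.mul (h.meas.pow 2)) ?_
  filter_upwards [h.nonneg, h.le, h.supp] with x h0 hB hs
  by_cases hx : x ∈ Metric.closedBall o R
  · rw [indicator_of_mem hx, Real.norm_eq_abs, abs_of_nonneg (by positivity)]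
    have hd : dist x o ≤ R := hx
    have h1 : 2 * a * dist x o ≤ 2 * |a| * R := by
      have : a * dist x o ≤ |a| * R :=
        mul_le_mul (le_abs_self a) hd dist_nonneg (abs_nonneg a)
      linarith
    have h2 : ρ x ^ 2 ≤ B ^ 2 := pow_le_pow_left₀ h0 hB 2
    exact mul_le_mul (Real.exp_le_exp.2 h1) h2 (by positivity) (by positivity)
  · rw [indicator_of_notMem hx, hs hx]
    simp

/-! ### part b: weights -/

/-- `e^{-cζ} ≤ e^{-(a/4)ζ}`. -/
theorem ev_exp_integrable (ha : GoodExp m o a) (hc : a / 4 ≤ c) : Integrable (fun x => Real.exp (-c * dist x o)) m := by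
  refine ha.2.mono' (ev_meas_exp_dist (-c) o).aestronglyMeasurable (Eventually.of_forall fun x => ?_)
  rw [Real.norm_eq_abs, abs_of_nonneg (Real.exp_pos _).le]
  refine Real.exp_le_exp.2 ?_
  have : (a / 4) * dist x o ≤ c * dist x o := mul_le_mul_of_nonneg_right hc dist_nonneg
  linarith

/-- `t^k e^{-(c-a/4)t}` is bounded on `[0,∞)` (e.g. `t^k/k! ≤ e^t`: `Real.pow_div_factorial_le_exp`, applied to `(c-a/4) t`). -/
theorem ev_pow_exp_integrable (ha : GoodExp m o a) (k : ℕ) (hc : a / 4 < c) :
    Integrable (fun x => dist x o ^ k * Real.exp (-c * dist x o)) m := by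
  set δ : ℝ := c - a / 4 with hδ
  have hδ0 : 0 < δ := by rw [hδ]; linarith
  have hmeas : AEStronglyMeasurable (fun x => dist x o ^ k * Real.exp (-c * dist x o)) m :=
    (((continuous_id.dist continuous_const).pow k).measurable.mul
      (ev_meas_exp_dist (-c) o)).aestronglyMeasurable
  refine (ha.2.const_mul ((k.factorial : ℝ) / δ ^ k)).mono' hmeas (Eventually.of_forall fun x => ?_)
  rw [Real.norm_eq_abs, abs_of_nonneg (by positivity)]
  have h1 := Real.pow_div_factorial_le_exp (δ * dist x o) (by positivity) k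
  have hk : (0 : ℝ) < k.factorial := by exact_mod_cast k.factorial_pos
  have h2 : dist x o ^ k ≤ (k.factorial : ℝ) / δ ^ k * Real.exp (δ * dist x o) := by
    rw [div_le_iff₀ hk, mul_pow] at h1
    rw [div_mul_eq_mul_div, le_div_iff₀ (by positivity)]
    linarith
  calc dist x o ^ k * Real.exp (-c * dist x o)
      ≤ ((k.factorial : ℝ) / δ ^ k * Real.exp (δ * dist x o)) * Real.exp (-c * dist x o) :=
        mul_le_mul_of_nonneg_right h2 (Real.exp_pos _).le
    _ = (k.factorial : ℝ) / δ ^ k * Real.exp (-(a / 4) * dist x o) := by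
        rw [mul_assoc, ← Real.exp_add]
        congr 2
        rw [hδ]; ring

/-- `ζ^k |u| = (e^{aζ}|u|)(ζ^k e^{-aζ}) ≤ (e^{2aζ}u² + ζ^{2k} e^{-2aζ})/2`. -/
theorem ev_weighted_integrable (ha : GoodExp m o a) (hu : AEStronglyMeasurable u m)
    (hw : Integrable (fun x => Real.exp (2 * a * dist x o) * u x ^ 2) m) (k : ℕ) :
    Integrable (fun x => dist x o ^ k * |u x|) m ∧
      ∫ x, dist x o ^ k * |u x| ∂m
        ≤ (ev_tail m o a u + ∫ x, dist x o ^ (2 * k) * Real.exp (-(2 * a) * dist x o) ∂m) / 2 := by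
  have ha0 : 0 < a := ha.1
  have hq : Integrable (fun x => dist x o ^ (2 * k) * Real.exp (-(2 * a) * dist x o)) m :=
    ev_pow_exp_integrable ha (2 * k) (by linarith)
  have hpt : ∀ x, dist x o ^ k * |u x| ≤
      (Real.exp (2 * a * dist x o) * u x ^ 2
        + dist x o ^ (2 * k) * Real.exp (-(2 * a) * dist x o)) / 2 := by
    intro x
    set p : ℝ := Real.exp (a * dist x o) * |u x| with hp
    set q : ℝ := dist x o ^ k * Real.exp (-(a * dist x o)) with hq'
    have h1 : p * q = dist x o ^ k * |u x| := by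
      rw [hp, hq']
      have : Real.exp (a * dist x o) * Real.exp (-(a * dist x o)) = 1 := by
        rw [← Real.exp_add]; simp
      calc Real.exp (a * dist x o) * |u x| * (dist x o ^ k * Real.exp (-(a * dist x o)))
          = (Real.exp (a * dist x o) * Real.exp (-(a * dist x o))) * (dist x o ^ k * |u x|) := by ring
        _ = _ := by rw [this, one_mul]
    have h2 : p ^ 2 = Real.exp (2 * a * dist x o) * u x ^ 2 := by
      rw [hp, mul_pow, sq_abs, ← Real.exp_nat_mul]
      congr 2; push_cast; ring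
    have h3 : q ^ 2 = dist x o ^ (2 * k) * Real.exp (-(2 * a) * dist x o) := by
      rw [hq', mul_pow, ← Real.exp_nat_mul, ← pow_mul, mul_comm k 2]
      congr 2; push_cast; ring
    rw [← h1, ← h2, ← h3]
    nlinarith [sq_nonneg (p - q)]
  have hsum : Integrable (fun x => (Real.exp (2 * a * dist x o) * u x ^ 2
        + dist x o ^ (2 * k) * Real.exp (-(2 * a) * dist x o)) / 2) m := (hw.add hq).div_const 2
  have hmeas : AEStronglyMeasurable (fun x => dist x o ^ k * |u x|) m :=
    ((continuous_id.dist continuous_const).pow k).measurable.aestronglyMeasurable.mul hu.norm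
  have hint : Integrable (fun x => dist x o ^ k * |u x|) m := by
    refine hsum.mono' hmeas (Eventually.of_forall fun x => ?_)
    rw [Real.norm_eq_abs, abs_of_nonneg (by positivity)]
    exact hpt x
  refine ⟨hint, ?_⟩
  calc ∫ x, dist x o ^ k * |u x| ∂m
      ≤ ∫ x, (Real.exp (2 * a * dist x o) * u x ^ 2
        + dist x o ^ (2 * k) * Real.exp (-(2 * a) * dist x o)) / 2 ∂m :=
        integral_mono hint hsum hpt
    _ = _ := by
        rw [integral_div, integral_add hw hq]
        rfl

/-- all moments of a nice density are finite (`ev_weighted_integrable`, `|ρ| = ρ` a.e.). -/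
theorem ev_nice_moment (ha : GoodExp m o a) (h : NiceDens m o a B ρ) (k : ℕ) :
    Integrable (fun x => dist x o ^ k * ρ x) m := by
  refine ((ev_weighted_integrable ha h.meas h.tail k).1).congr (h.nonneg.mono fun x hx => ?_)
  simp only [abs_of_nonneg hx]

/-- `∫⁻ edist x o ^ 2 d(ρ m) = ∫⁻ ofReal (ζ² ρ) dm < ∞`  (`lintegral_withDensity_eq_lintegral_mul₀`, `edist_dist`, `Integrable.lintegral_lt_top`). -/
theorem ev_nice_secondMoment (ha : GoodExp m o a) (h : NiceDens m o a B ρ) : HasSecondMoment (dens m ρ) := by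
  refine ⟨o, ?_⟩
  unfold dens
  have hme : AEMeasurable (fun x : X => (edist x o) ^ 2) m :=
    ((continuous_id.edist continuous_const).measurable.pow_const 2).aemeasurable
  rw [lintegral_withDensity_eq_lintegral_mul₀ h.meas.aemeasurable.ennreal_ofReal hme]
  have h2 := (ev_nice_moment ha h 2).lintegral_lt_top
  refine lt_of_eq_of_lt (lintegral_congr fun x => ?_) h2
  simp only [Pi.mul_apply]
  rw [edist_dist, ENNReal.ofReal_mul (by positivity), ENNReal.ofReal_pow dist_nonneg, mul_comm]

/-- tails of an integrable function (`w ≥ 0` not needed):  dominated convergence, `1_{B_R^c} → 0` pointwise. -/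
theorem ev_tail_tendsto {w : X → ℝ} (hw : Integrable w m) (o : X) :
    Tendsto (fun R : ℝ => ∫ x in (Metric.closedBall o R)ᶜ, w x ∂m) atTop (𝓝 0) := by
  have h1 : ∀ R : ℝ, ∫ x in (Metric.closedBall o R)ᶜ, w x ∂m
      = ∫ x, ((Metric.closedBall o R)ᶜ).indicator w x ∂m := fun R =>
    (integral_indicator Metric.isClosed_closedBall.measurableSet.compl).symm
  simp_rw [h1]
  have h0 : (0 : ℝ) = ∫ _x : X, (0 : ℝ) ∂m := by simp
  rw [h0]
  refine tendsto_integral_filter_of_dominated_convergence (fun x => ‖w x‖) ?_ ?_ hw.norm ?_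
  · exact Eventually.of_forall fun R =>
      hw.aestronglyMeasurable.indicator Metric.isClosed_closedBall.measurableSet.compl
  · exact Eventually.of_forall fun R => Eventually.of_forall fun x =>
      norm_indicator_le_norm_self _ _
  · refine Eventually.of_forall fun x => ?_
    refine tendsto_const_nhds.congr' ?_
    filter_upwards [eventually_ge_atTop (dist x o)] with R hR
    rw [indicator_of_notMem]
    simpa using hR

/-! ### part c: entropy -/

/-- for `0 ≤ z ≤ B`, `0 ≤ t`:   `|z log z| ≤ z (log (max B 1) + t) + e^{-t}`.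
(upper bound: `log z ≤ log (max B 1)`; lower bound: `z log z ≥ z log b + z - b` with `b = e^{-t}`, i.e. `log (b/z) ≤ b/z - 1`: `Real.log_le_sub_one_of_pos`; `z = 0` trivial.) -/
theorem ev_mul_log_abs_le {z t : ℝ} (hz : 0 ≤ z) (hzB : z ≤ B) (ht : 0 ≤ t) :
    |z * Real.log z| ≤ z * (Real.log (max B 1) + t) + Real.exp (-t) := by
  have he : 0 < Real.exp (-t) := Real.exp_pos _
  have hL : 0 ≤ Real.log (max B 1) := Real.log_nonneg (le_max_right _ _)
  rcases eq_or_lt_of_le hz with h0 | h0
  · rw [← h0]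
    simpa using he.le
  · have h1 : Real.log z ≤ Real.log (max B 1) := Real.log_le_log h0 (hzB.trans (le_max_left _ _))
    have h2 : Real.log (Real.exp (-t) / z) ≤ Real.exp (-t) / z - 1 :=
      Real.log_le_sub_one_of_pos (div_pos he h0)
    rw [Real.log_div he.ne' h0.ne', Real.log_exp] at h2
    have h3 : z * (-t - Real.log z) ≤ z * (Real.exp (-t) / z - 1) := mul_le_mul_of_nonneg_left h2 hz
    have h4 : z * (Real.exp (-t) / z - 1) = Real.exp (-t) - z := by
      field_simp
    rw [h4] at h3
    have h5 : z * Real.log z ≤ z * Real.log (max B 1) := mul_le_mul_of_nonneg_left h1 hz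
    have h6 : 0 ≤ z * t := mul_nonneg hz ht
    have h7 : 0 ≤ z * Real.log (max B 1) := mul_nonneg hz hL
    rw [abs_le]
    constructor <;> nlinarith

/-- the dominating function of `ρ log ρ` is integrable. -/
theorem ev_ent_dom_integrable (ha : GoodExp m o a) (h : NiceDens m o a B ρ) :
    Integrable (fun x => ρ x * (Real.log (max B 1) + a / 4 * dist x o)
      + Real.exp (-(a / 4) * dist x o)) m := by
  have h1 : Integrable (fun x => dist x o ^ 1 * ρ x) m := ev_nice_moment ha h 1
  have h2 : Integrable (fun x => Real.log (max B 1) * ρ x + a / 4 * (dist x o ^ 1 * ρ x)) m :=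
    (h.int.const_mul _).add (h1.const_mul _)
  refine (h2.add ha.2).congr (Filter.Eventually.of_forall fun x => ?_)
  simp only [Pi.add_apply, pow_one]
  ring

/-- `|ρ log ρ|` is dominated. -/
theorem ev_ent_dom_le (ha : GoodExp m o a) (h : NiceDens m o a B ρ) :
    ∀ᵐ x ∂m, |ρ x * Real.log (ρ x)| ≤ ρ x * (Real.log (max B 1) + a / 4 * dist x o)
      + Real.exp (-(a / 4) * dist x o) := by
  filter_upwards [h.nonneg, h.le] with x h0 hB
  have ht : 0 ≤ a / 4 * dist x o := mul_nonneg (by linarith [ha.1]) dist_nonneg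
  have := ev_mul_log_abs_le h0 hB ht
  rwa [← neg_mul] at this

/-- (`ev_mul_log_abs_le` with `t = (a/4) ζ`, `ev_nice_moment` `k = 0, 1`, `ha.2`; measurability: `Real.continuous_mul_log`.) -/
theorem ev_ent_integrable (ha : GoodExp m o a) (h : NiceDens m o a B ρ) :
    Integrable (fun x => ρ x * Real.log (ρ x)) m :=
  (ev_ent_dom_integrable ha h).mono' (Real.continuous_mul_log.comp_aestronglyMeasurable h.meas)
    (by simpa only [Real.norm_eq_abs] using ev_ent_dom_le ha h)

/-- uniform bound of the entropy:  `|entF ρ| ≤ log (max B 1) + (a/4) ∫ ζ ρ + ∫ e^{-(a/4)ζ}`  and `∫ ζ ρ ≤ (T + ∫ ζ² e^{-2aζ})/2` (`ev_weighted_integrable`, `k = 1`). -/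
theorem ev_ent_abs_le (ha : GoodExp m o a) (B T : ℝ) :
    ∃ C : ℝ, 0 ≤ C ∧ ∀ ρ : X → ℝ, NiceDens m o a B ρ → ev_tail m o a ρ ≤ T → |entF m ρ| ≤ C := by
  have ha0 := ha.1
  have hL : 0 ≤ Real.log (max B 1) := Real.log_nonneg (le_max_right _ _)
  have hI2 : 0 ≤ ∫ x, dist x o ^ (2 * 1) * Real.exp (-(2 * a) * dist x o) ∂m :=
    integral_nonneg fun x => mul_nonneg (pow_nonneg dist_nonneg _) (Real.exp_pos _).le
  have hI0 : 0 ≤ ∫ x, Real.exp (-(a / 4) * dist x o) ∂m := integral_nonneg fun x => (Real.exp_pos _).le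
  refine ⟨Real.log (max B 1)
    + a / 4 * ((|T| + ∫ x, dist x o ^ (2 * 1) * Real.exp (-(2 * a) * dist x o) ∂m) / 2)
    + ∫ x, Real.exp (-(a / 4) * dist x o) ∂m, by positivity, ?_⟩
  intro ρ h hT
  have hw := ev_weighted_integrable ha h.meas h.tail 1
  have h1 : Integrable (fun x => dist x o ^ 1 * ρ x) m := ev_nice_moment ha h 1
  have e1 : ∫ x, dist x o ^ 1 * ρ x ∂m = ∫ x, dist x o ^ 1 * |ρ x| ∂m := by
    refine integral_congr_ae ?_
    filter_upwards [h.nonneg] with x hx
    rw [abs_of_nonneg hx]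
  have e2 : ∫ x, (ρ x * (Real.log (max B 1) + a / 4 * dist x o)
      + Real.exp (-(a / 4) * dist x o)) ∂m
      = Real.log (max B 1) * 1 + a / 4 * (∫ x, dist x o ^ 1 * ρ x ∂m)
        + ∫ x, Real.exp (-(a / 4) * dist x o) ∂m := by
    have i1 : Integrable (fun x => Real.log (max B 1) * ρ x) m := h.int.const_mul _
    have i2 : Integrable (fun x => a / 4 * (dist x o ^ 1 * ρ x)) m := h1.const_mul _
    have i3 : Integrable (fun x => Real.log (max B 1) * ρ x + a / 4 * (dist x o ^ 1 * ρ x)) m :=
      i1.add i2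
    have e3 : ∫ x, (ρ x * (Real.log (max B 1) + a / 4 * dist x o)
        + Real.exp (-(a / 4) * dist x o)) ∂m
        = ∫ x, ((Real.log (max B 1) * ρ x + a / 4 * (dist x o ^ 1 * ρ x))
          + Real.exp (-(a / 4) * dist x o)) ∂m := by
      refine integral_congr_ae (Filter.Eventually.of_forall fun x => ?_)
      simp only [pow_one]
      ring
    rw [e3, integral_add i3 ha.2, integral_add i1 i2, integral_const_mul, integral_const_mul, h.mass]
  calc |entF m ρ| = ‖∫ x, ρ x * Real.log (ρ x) ∂m‖ := rfl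
    _ ≤ ∫ x, (ρ x * (Real.log (max B 1) + a / 4 * dist x o)
        + Real.exp (-(a / 4) * dist x o)) ∂m :=
        norm_integral_le_of_norm_le (ev_ent_dom_integrable ha h)
          (by simpa only [Real.norm_eq_abs] using ev_ent_dom_le ha h)
    _ = Real.log (max B 1) * 1 + a / 4 * (∫ x, dist x o ^ 1 * ρ x ∂m)
        + ∫ x, Real.exp (-(a / 4) * dist x o) ∂m := e2
    _ ≤ Real.log (max B 1)
        + a / 4 * ((|T| + ∫ x, dist x o ^ (2 * 1) * Real.exp (-(2 * a) * dist x o) ∂m) / 2)
        + ∫ x, Real.exp (-(a / 4) * dist x o) ∂m := by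
        rw [mul_one, e1]
        have h3 := hw.2
        have h4 : T ≤ |T| := le_abs_self T
        have h5 : ∫ x, dist x o ^ 1 * |ρ x| ∂m
            ≤ (|T| + ∫ x, dist x o ^ (2 * 1) * Real.exp (-(2 * a) * dist x o) ∂m) / 2 := by
          linarith
        have h6 := mul_le_mul_of_nonneg_left h5 (show 0 ≤ a / 4 by linarith)
        linarith

/-- **continuity of the entropy** under dominated pointwise convergence.
`tendsto_integral_filter_of_dominated_convergence` with the bound `D (log (max B 1) + (a/4) ζ) + e^{-(a/4)ζ}` (`ev_mul_log_abs_le`, monotone in `z ≤ D x`);  `Real.continuous_mul_log`. -/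
theorem ev_ent_tendsto {ι : Type*} {l : Filter ι} [l.IsCountablyGenerated] (ha : GoodExp m o a) {ρs : ι → X → ℝ} {D : X → ℝ}
    (hmeas : ∀ᶠ i in l, AEStronglyMeasurable (ρs i) m)
    (hb : ∀ᶠ i in l, ∀ᵐ x ∂m, 0 ≤ ρs i x ∧ ρs i x ≤ B ∧ ρs i x ≤ D x)
    (hD0 : Integrable D m) (hD1 : Integrable (fun x => dist x o * D x) m)
    (hlim : ∀ᵐ x ∂m, Tendsto (fun i => ρs i x) l (𝓝 (ρ x))) :
    Tendsto (fun i => entF m (ρs i)) l (𝓝 (entF m ρ)) := by
  unfold entF
  refine tendsto_integral_filter_of_dominated_convergence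
    (fun x => D x * (Real.log (max B 1) + (a / 4) * dist x o) + Real.exp (-(a / 4) * dist x o))
    ?_ ?_ ?_ ?_
  · filter_upwards [hmeas] with i hi
    exact Real.continuous_mul_log.comp_aestronglyMeasurable hi
  · filter_upwards [hb] with i hi
    filter_upwards [hi] with x hx
    rw [Real.norm_eq_abs]
    have ha0 := ha.1
    have h1 := ev_mul_log_abs_le (B := B) hx.1 hx.2.1 (t := (a / 4) * dist x o) (by positivity)
    have h2 : 0 ≤ Real.log (max B 1) + a / 4 * dist x o := by
      have h3 : 0 ≤ Real.log (max B 1) := Real.log_nonneg (le_max_right _ _)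
      positivity
    have h4 := mul_le_mul_of_nonneg_right hx.2.2 h2
    have e : -(a / 4 * dist x o) = -(a / 4) * dist x o := by ring
    rw [e] at h1
    linarith
  · have h : Integrable (fun x => Real.log (max B 1) * D x + (a / 4) * (dist x o * D x)
        + Real.exp (-(a / 4) * dist x o)) m :=
      ((hD0.const_mul _).add (hD1.const_mul _)).add ha.2
    refine h.congr (ae_of_all _ fun x => ?_)
    ring
  · filter_upwards [hlim] with x hx
    exact (Real.continuous_mul_log.tendsto _).comp hx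

end Claimed.Agent.R210.EV.Basic
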