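/-
Row 210 (S0432), layer EV, block EV1': good radii.      Architect helper948; proved by helper73.
`𝒢` monotone and bounded  ⟹  `liminf_{R → ∞} R 𝒢'(R) = 0` along differentiability points
(otherwise `𝒢' ≥ ε/R` a.e. on `[R₁,∞)`, `∫_{R₁}^T 𝒢' ≥ ε log(T/R₁) → ∞`, but `∫_{R₁}^T 𝒢' ≤ 𝒢(T) - 𝒢(R₁)`:
Mathlib `Monotone.ae_differentiableAt`, `MonotoneOn.intervalIntegral_deriv_mem_uIcc`, `MonotoneOn.intervalIntegrable_deriv`).
-/
import Claimed.Agent.R210.EV.Defs

set_option autoImplicit false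

open Claims.C0366 Claims.C0366.WeakHessian
open Set Filter MeasureTheory
open scoped ENNReal NNReal Topology

namespace Claimed.Agent.R210.EV.Radii

open Claimed.Agent.R210.Defs Claimed.Agent.R210.Defs2 Claimed.Agent.R210.EV.Defs

/-- the real variable lemma. -/
theorem ev_radii_real {G : ℝ → ℝ} (hG : Monotone G) {C : ℝ} (hC : ∀ r, |G r| ≤ C) {ε : ℝ} (hε : 0 < ε) (R₀ : ℝ) :
    ∃ R, R₀ ≤ R ∧ DifferentiableAt ℝ G R ∧ R * deriv G R ≤ ε := by
  by_contra hcon
  push Not at hcon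
  set R₁ : ℝ := max R₀ 1 with hR₁
  have hR₁1 : (1 : ℝ) ≤ R₁ := le_max_right _ _
  have hR₁0 : 0 < R₁ := by linarith
  set T : ℝ := R₁ * Real.exp ((2 * C + 1) / ε) with hT
  have hexp1 : 1 ≤ Real.exp ((2 * C + 1) / ε) := by
    apply Real.one_le_exp
    have hC0 : 0 ≤ C := (abs_nonneg _).trans (hC 0)
    positivity
  have hRT : R₁ ≤ T := by
    rw [hT]; nlinarith
  have hint := (hG.monotoneOn (uIcc R₁ T)).intervalIntegrable_deriv
  have hmem := (hG.monotoneOn (uIcc R₁ T)).intervalIntegral_deriv_mem_uIcc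
  have hGle : G R₁ ≤ G T := hG hRT
  rw [uIcc_of_le (by linarith), mem_Icc] at hmem
  have hub : ∫ x in R₁..T, deriv G x ≤ 2 * C := by
    have h1 := abs_le.1 (hC T)
    have h2 := abs_le.1 (hC R₁)
    linarith [hmem.2]
  have hint2 : IntervalIntegrable (fun x : ℝ => ε * x⁻¹) volume R₁ T := by
    apply IntervalIntegrable.const_mul
    apply intervalIntegral.intervalIntegrable_inv
    · intro x hx
      rw [uIcc_of_le hRT] at hx
      have := hx.1
      intro h0
      linarith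
    · exact continuousOn_id
  have hlb : ∫ x in R₁..T, ε * x⁻¹ ≤ ∫ x in R₁..T, deriv G x := by
    apply intervalIntegral.integral_mono_ae_restrict hRT hint2 hint
    have hae := hG.ae_differentiableAt
    rw [Filter.EventuallyLE, ae_restrict_iff' measurableSet_Icc]
    filter_upwards [hae] with x hx hxm
    have hx0 : 0 < x := by linarith [hxm.1]
    have h3 := hcon x ((le_max_left _ _).trans hxm.1) hx
    rw [← div_eq_mul_inv, div_le_iff₀ hx0]
    linarith
  have hval : ∫ x in R₁..T, ε * x⁻¹ = 2 * C + 1 := by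
    rw [intervalIntegral.integral_const_mul, integral_inv_of_pos hR₁0 (by linarith)]
    rw [hT, mul_div_cancel_left₀ _ hR₁0.ne', Real.log_exp]
    field_simp
  linarith

/-- a sequence of good radii. -/
theorem ev_radii_seq {G : ℝ → ℝ} (hG : Monotone G) {C : ℝ} (hC : ∀ r, |G r| ≤ C) :
    ∃ Rs : ℕ → ℝ, Tendsto Rs atTop atTop ∧ (∀ j, DifferentiableAt ℝ G (Rs j)) ∧
      Tendsto (fun j => Rs j * deriv G (Rs j)) atTop (𝓝 0) := by
  have h : ∀ j : ℕ, ∃ R, ((j : ℝ) + 1) ≤ R ∧ DifferentiableAt ℝ G R ∧ R * deriv G R ≤ 1 / ((j : ℝ) + 1) :=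
    fun j => ev_radii_real hG hC (by positivity) _
  choose Rs h1 h2 h3 using h
  refine ⟨Rs, ?_, h2, ?_⟩
  · have hle : ∀ j : ℕ, (j : ℝ) ≤ Rs j := fun j => by linarith [h1 j]
    exact tendsto_atTop_mono hle tendsto_natCast_atTop_atTop
  · apply squeeze_zero (g := fun j : ℕ => 1 / ((j : ℝ) + 1))
    · intro j
      have hp : 0 ≤ Rs j := by
        have := h1 j
        have hj : (0 : ℝ) ≤ j := Nat.cast_nonneg j
        linarith
      exact mul_nonneg hp hG.deriv_nonneg
    · exact h3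
    · exact tendsto_one_div_add_atTop_nhds_zero_nat

end Claimed.Agent.R210.EV.Radii
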