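/-
Row 210 (S0432), layer EV: the normalised truncations `ev_trunc m o ρ R = 1_{B_R} ρ / 𝒢(R)`, `𝒢 = ev_mass m o ρ`, `𝒢(R) = ∫_{B_R} ρ dm`, `B_R = closedBall o R`.      Architect helper948.
Measure theory only.   Tools: EV/Basic.lean (black boxes).   Every `sorry` is an independent leaf; earlier statements may be used.
-/
import Claimed.Agent.R210.EV.Basic

set_option autoImplicit false

open Claims.C0366 Claims.C0366.WeakHessian
open Set Filter MeasureTheory
open scoped ENNReal NNReal Topology

namespace Claimed.Agent.R210.EV.Cut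

open Claimed.Agent.R210.Defs Claimed.Agent.R210.Defs2 Claimed.Agent.R210.EV.Defs Claimed.Agent.R210.EV.Basic

variable {X : Type*} [MetricSpace X] [MeasurableSpace X] [BorelSpace X]
variable {m : Measure X} {a B R : ℝ} {o : X} {ρ : X → ℝ}

/-- (`setIntegral_mono_set`, `Metric.closedBall_subset_closedBall`.) -/
theorem ev_mass_mono (h : NiceDens m o a B ρ) : Monotone (ev_mass m o ρ) := by
  intro r s hrs
  exact setIntegral_mono_set h.int.integrableOn (ae_restrict_of_ae h.nonneg)
    (Metric.closedBall_subset_closedBall hrs).eventuallyLE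

theorem ev_mass_nonneg (h : NiceDens m o a B ρ) (R : ℝ) : 0 ≤ ev_mass m o ρ R := by
  exact integral_nonneg_of_ae (ae_restrict_of_ae h.nonneg)

/-- (`setIntegral_le_integral`, `h.mass`.) -/
theorem ev_mass_le_one (h : NiceDens m o a B ρ) (R : ℝ) : ev_mass m o ρ R ≤ 1 := by
  rw [← h.mass]
  exact setIntegral_le_integral h.int h.nonneg

/-- `𝒢(R) = 1 - ∫_{B_R^c} ρ` (`integral_add_compl`), `Basic.ev_tail_tendsto`. -/
theorem ev_mass_tendsto (h : NiceDens m o a B ρ) : Tendsto (ev_mass m o ρ) atTop (𝓝 1) := by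
  have h1 : ∀ R : ℝ, ev_mass m o ρ R = 1 - ∫ x in (Metric.closedBall o R)ᶜ, ρ x ∂m := by
    intro R
    have := integral_add_compl (μ := m) (f := ρ) (s := Metric.closedBall o R)
      Metric.isClosed_closedBall.measurableSet h.int
    rw [h.mass] at this
    unfold ev_mass
    linarith
  have h2 := (ev_tail_tendsto h.int o).const_sub 1
  rw [sub_zero] at h2
  exact h2.congr fun R => (h1 R).symm

/-- the truncation is a bounded density with bounded support. -/
theorem ev_trunc_BS (h : NiceDens m o a B ρ) (hz : 0 < ev_mass m o ρ R) :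
    ev_BS m o R (B / ev_mass m o ρ R) (ev_trunc m o ρ R) := by
  have hms : MeasurableSet (Metric.closedBall o R) := measurableSet_closedBall
  refine ⟨?_, ?_, ?_, ?_, ?_⟩
  · have h1 : AEStronglyMeasurable ((Metric.closedBall o R).indicator ρ) m := h.meas.indicator hms
    have h2 := h1.mul_const (ev_mass m o ρ R)⁻¹
    refine h2.congr (Filter.Eventually.of_forall fun x => ?_)
    simp only [ev_trunc, div_eq_mul_inv]
  · filter_upwards [h.nonneg] with x hx
    unfold ev_trunc
    refine div_nonneg ?_ hz.le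
    by_cases hxB : x ∈ Metric.closedBall o R
    · rw [Set.indicator_of_mem hxB]; exact hx
    · rw [Set.indicator_of_notMem hxB]
  · filter_upwards [h.nonneg, h.le] with x hx hx'
    unfold ev_trunc
    refine div_le_div_of_nonneg_right ?_ hz.le
    by_cases hxB : x ∈ Metric.closedBall o R
    · rw [Set.indicator_of_mem hxB]; exact hx'
    · rw [Set.indicator_of_notMem hxB]; exact hx.trans hx'
  · refine Filter.Eventually.of_forall fun x hxB => ?_
    unfold ev_trunc
    rw [Set.indicator_of_notMem hxB, zero_div]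
  · unfold ev_trunc
    rw [integral_div, integral_indicator hms]
    exact div_self hz.ne'

/-- `|trunc_R ρ - ρ| = (1/𝒢(R) - 1) ρ 1_{B_R} + ρ 1_{B_R^c}` a.e., so `∫ w |..| = (1/𝒢(R) - 1) ∫_{B_R} w ρ + ∫_{B_R^c} w ρ → 0`
(`ev_mass_tendsto`, `Basic.ev_tail_tendsto`, `∫_{B_R} w ρ ≤ ∫ w ρ`). -/
theorem ev_trunc_weight_tendsto (h : NiceDens m o a B ρ) {w : X → ℝ} (hw0 : ∀ x, 0 ≤ w x)
    (hw : Integrable (fun x => w x * ρ x) m) :
    Tendsto (fun R : ℝ => ∫ x, w x * |ev_trunc m o ρ R x - ρ x| ∂m) atTop (𝓝 0) := by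
  have hG := ev_mass_tendsto h
  have hT := ev_tail_tendsto hw o
  have hg : Tendsto (fun R : ℝ => ((ev_mass m o ρ R)⁻¹ - 1) * (∫ x, w x * ρ x ∂m)
      + ∫ x in (Metric.closedBall o R)ᶜ, w x * ρ x ∂m) atTop (𝓝 0) := by
    have h1 : Tendsto (fun R : ℝ => (ev_mass m o ρ R)⁻¹) atTop (𝓝 1) := by
      simpa using hG.inv₀ one_ne_zero
    have := ((h1.sub_const 1).mul_const (∫ x, w x * ρ x ∂m)).add hT
    simpa using this
  have hpos : ∀ᶠ R in atTop, 0 < ev_mass m o ρ R := hG.eventually (lt_mem_nhds one_pos)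
  refine squeeze_zero' (Filter.Eventually.of_forall fun R =>
    integral_nonneg fun x => mul_nonneg (hw0 x) (abs_nonneg _)) ?_ hg
  filter_upwards [hpos] with R hR
  have hms : MeasurableSet (Metric.closedBall o R) := measurableSet_closedBall
  have hle1 := ev_mass_le_one h R
  have hinv : 0 ≤ (ev_mass m o ρ R)⁻¹ - 1 := by
    have := (one_le_inv₀ hR).2 hle1
    linarith
  have hwρ0 : ∀ᵐ x ∂m, 0 ≤ w x * ρ x := by
    filter_upwards [h.nonneg] with x hx using mul_nonneg (hw0 x) hx
  have hae : (fun x => w x * |ev_trunc m o ρ R x - ρ x|) =ᵐ[m] fun x =>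
      ((ev_mass m o ρ R)⁻¹ - 1) * (Metric.closedBall o R).indicator (fun x => w x * ρ x) x
        + ((Metric.closedBall o R)ᶜ).indicator (fun x => w x * ρ x) x := by
    filter_upwards [h.nonneg] with x hx
    unfold ev_trunc
    by_cases hxB : x ∈ Metric.closedBall o R
    · have hxc : x ∉ (Metric.closedBall o R)ᶜ := fun hc => hc hxB
      rw [Set.indicator_of_mem hxB, Set.indicator_of_mem hxB, Set.indicator_of_notMem hxc]
      have h3 : ρ x / ev_mass m o ρ R - ρ x = ((ev_mass m o ρ R)⁻¹ - 1) * ρ x := by ring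
      rw [h3, abs_of_nonneg (mul_nonneg hinv hx)]
      ring
    · have hxc : x ∈ (Metric.closedBall o R)ᶜ := hxB
      rw [Set.indicator_of_notMem hxB, Set.indicator_of_notMem hxB, Set.indicator_of_mem hxc]
      rw [zero_div, zero_sub, abs_neg, abs_of_nonneg hx]
      ring
  rw [integral_congr_ae hae, integral_add ((hw.indicator hms).const_mul _) (hw.indicator hms.compl),
    integral_const_mul, integral_indicator hms, integral_indicator hms.compl]
  have h4 : ∫ x in Metric.closedBall o R, w x * ρ x ∂m ≤ ∫ x, w x * ρ x ∂m :=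
    setIntegral_le_integral hw hwρ0
  have h5 := mul_le_mul_of_nonneg_left h4 hinv
  linarith

/-- `Basic.ev_ent_tendsto` with `l = atTop`, bound `2B`, `D = 2ρ` (eventually `𝒢(R) ≥ 1/2`);  for every `x`: eventually `x ∈ B_R` and `trunc_R ρ x = ρ x / 𝒢(R) → ρ x`. -/
theorem ev_trunc_ent_tendsto (ha : GoodExp m o a) (h : NiceDens m o a B ρ) :
    Tendsto (fun R : ℝ => entF m (ev_trunc m o ρ R)) atTop (𝓝 (entF m ρ)) := by
  have hG := ev_mass_tendsto h
  have hev : ∀ᶠ R : ℝ in atTop, (1 : ℝ) / 2 < ev_mass m o ρ R :=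
    (tendsto_order.1 hG).1 (1 / 2) (by norm_num)
  refine ev_ent_tendsto (B := 2 * B) (D := fun x => 2 * ρ x) ha ?_ ?_ ?_ ?_ ?_
  · filter_upwards with R
    have h1 : AEStronglyMeasurable ((Metric.closedBall o R).indicator ρ) m :=
      h.meas.indicator Metric.isClosed_closedBall.measurableSet
    exact (h1.aemeasurable.div_const _).aestronglyMeasurable
  · filter_upwards [hev] with R hR
    filter_upwards [h.nonneg, h.le] with x h0 hB
    have hpos : 0 < ev_mass m o ρ R := by linarith
    have hi0 : 0 ≤ (Metric.closedBall o R).indicator ρ x := by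
      by_cases hx : x ∈ Metric.closedBall o R
      · rw [indicator_of_mem hx]; exact h0
      · rw [indicator_of_notMem hx]
    have hi1 : (Metric.closedBall o R).indicator ρ x ≤ ρ x := by
      by_cases hx : x ∈ Metric.closedBall o R
      · rw [indicator_of_mem hx]
      · rw [indicator_of_notMem hx]; exact h0
    have key : ev_trunc m o ρ R x ≤ 2 * ρ x := by
      unfold ev_trunc
      rw [div_le_iff₀ hpos]
      nlinarith
    exact ⟨div_nonneg hi0 hpos.le, by linarith, key⟩
  · exact h.int.const_mul 2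
  · refine ((ev_nice_moment ha h 1).const_mul 2).congr ?_
    filter_upwards with x
    ring
  · filter_upwards with x
    have h1 : ∀ᶠ R : ℝ in atTop, ev_trunc m o ρ R x = ρ x / ev_mass m o ρ R := by
      filter_upwards [eventually_ge_atTop (dist x o)] with R hR
      unfold ev_trunc
      rw [indicator_of_mem (Metric.mem_closedBall.2 hR)]
    have h2 : Tendsto (fun R : ℝ => ρ x / ev_mass m o ρ R) atTop (𝓝 (ρ x / 1)) :=
      tendsto_const_nhds.div hG one_ne_zero
    rw [div_one] at h2
    exact h2.congr' (h1.mono fun R hR => hR.symm)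

end Claimed.Agent.R210.EV.Cut
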