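/-
Row 210 (S0432), layer EV: `W₂` between nice densities.      Architect helper948.
Tools: OT/Ifc.lean (`ot_W2sq_le_cost`, `ot_W2sq_lt_top`, `ot_W2sq_comm`, `ot_triangle_real`, ...; the proof of `ot_le_tv` in OT/Basic.lean is the model of `ev_W2_le`), EV/Basic.lean.
-/
import Claimed.Agent.R210.EV.Basic
import Claimed.Agent.R210.OT.Ifc

set_option autoImplicit false

open Claims.C0366 Claims.C0366.WeakHessian
open Set Filter MeasureTheory
open scoped ENNReal NNReal Topology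

namespace Claimed.Agent.R210.EV.Wass

open Claimed.Agent.R210.Defs Claimed.Agent.R210.Defs2 Claimed.Agent.R210.EV.Defs Claimed.Agent.R210.EV.Basic
  Claimed.Agent.R210.OT.Defs Claimed.Agent.R210.OT.Ifc

variable {X : Type*} [MetricSpace X] [MeasurableSpace X] [BorelSpace X]
  [CompleteSpace X] [TopologicalSpace.SeparableSpace X]
variable {m σ : Measure X} {a B B' : ℝ} {o : X} {ρ ρ' : X → ℝ}

theorem ev_W2_ne_top (ha : GoodExp m o a) (hρ : NiceDens m o a B ρ) (hσ : IsProbabilityMeasure σ)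
    (h2 : HasSecondMoment σ) : W2sq (dens m ρ) σ ≠ ∞ :=
  haveI := ev_dens_prob hρ
  (ot_W2sq_lt_top (ev_nice_secondMoment ha hρ) h2).ne

/-- abstract form:  `η` common part, `μ', ν'` finite measures of the same mass:
`W2sq (η + μ') (η + ν') ≤ 2 ∫⁻ edist x o ^ 2 dμ' + 2 ∫⁻ edist x o ^ 2 dν'`.
Coupling `(id,id)_# η + (μ' univ)⁻¹ • μ'.prod ν'` (as in the proof of `ot_le_tv`, OT/Basic.lean), `edist x y ^ 2 ≤ 2 edist x o ^ 2 + 2 edist y o ^ 2`. -/
theorem ev_W2_le_abs {η μ' ν' : Measure X} [IsFiniteMeasure η] [IsFiniteMeasure μ'] [IsFiniteMeasure ν']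
    (hm : μ' univ = ν' univ) (o : X) :
    W2sq (η + μ') (η + ν') ≤ 2 * ∫⁻ x, edist x o ^ 2 ∂μ' + 2 * ∫⁻ x, edist x o ^ 2 ∂ν' := by
  have : SecondCountableTopology X := UniformSpace.secondCountable_of_separable X
  by_cases hz : μ' univ = 0
  · have e1 : μ' = 0 := Measure.measure_univ_eq_zero.1 hz
    have e2 : ν' = 0 := Measure.measure_univ_eq_zero.1 (hm ▸ hz)
    rw [e1, e2, add_zero, ot_W2sq_self]
    exact bot_le
  have hc1 : μ' univ ≠ ∞ := measure_ne_top _ _
  have hz' : ν' univ ≠ 0 := hm ▸ hz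
  have hc1' : ν' univ ≠ ∞ := measure_ne_top _ _
  have hcp : IsCoupling ((μ' univ)⁻¹ • μ'.prod ν') μ' ν' := by
    constructor
    · rw [Measure.map_smul, Measure.map_fst_prod, smul_smul, ← hm, ENNReal.inv_mul_cancel hz hc1, one_smul]
    · rw [Measure.map_smul, Measure.map_snd_prod, smul_smul, ENNReal.inv_mul_cancel hz hc1, one_smul]
  have hc := ot_W2sq_le_cost (OT.Basic.ot_coupling_add (OT.Basic.ot_coupling_diag η) hcp)
  refine hc.trans ?_
  rw [OT.Basic.ot_cost_add, OT.Basic.ot_cost_diag, zero_add, OT.Basic.ot_cost_smul]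
  have hmeas : Measurable (fun x : X => edist x o ^ 2) :=
    (measurable_id.edist measurable_const).pow_const 2
  have hpt : ∀ p : X × X, edist p.1 p.2 ^ 2 ≤ 2 * edist p.1 o ^ 2 + 2 * edist p.2 o ^ 2 := by
    intro p
    have h1 : edist p.1 p.2 ≤ edist p.1 o + edist p.2 o := by
      rw [edist_comm p.2 o]; exact edist_triangle _ _ _
    have h2 : ∀ s t : ℝ≥0∞, (s + t) ^ 2 ≤ 2 * s ^ 2 + 2 * t ^ 2 := by
      intro s t
      rcases eq_or_ne s ∞ with rfl | hs
      · simp
      rcases eq_or_ne t ∞ with rfl | ht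
      · simp
      lift s to ℝ≥0 using hs
      lift t to ℝ≥0 using ht
      have h3 : (s + t) ^ 2 ≤ 2 * s ^ 2 + 2 * t ^ 2 := by
        rw [← NNReal.coe_le_coe]
        push_cast
        nlinarith [sq_nonneg ((s : ℝ) - t)]
      exact_mod_cast h3
    calc edist p.1 p.2 ^ 2 ≤ (edist p.1 o + edist p.2 o) ^ 2 := by gcongr
      _ ≤ 2 * edist p.1 o ^ 2 + 2 * edist p.2 o ^ 2 := h2 _ _
  have hb : QuadraticTransportCost (μ'.prod ν') ≤
      2 * ((∫⁻ x, edist x o ^ 2 ∂μ') * ν' univ) + 2 * ((∫⁻ x, edist x o ^ 2 ∂ν') * μ' univ) := by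
    unfold QuadraticTransportCost
    refine (lintegral_mono hpt).trans ?_
    have hm1 : Measurable (fun p : X × X => edist p.1 o ^ 2) := hmeas.comp measurable_fst
    have hm2 : Measurable (fun p : X × X => edist p.2 o ^ 2) := hmeas.comp measurable_snd
    rw [lintegral_add_left (hm1.const_mul 2), lintegral_const_mul _ hm1, lintegral_const_mul _ hm2]
    have e1 : ∫⁻ p : X × X, edist p.1 o ^ 2 ∂(μ'.prod ν') = (∫⁻ x, edist x o ^ 2 ∂μ') * ν' univ := by
      have := lintegral_prod_mul (μ := μ') (ν := ν') (f := fun x => edist x o ^ 2) (g := fun _ => 1)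
        hmeas.aemeasurable aemeasurable_const
      simpa using this
    have e2 : ∫⁻ p : X × X, edist p.2 o ^ 2 ∂(μ'.prod ν') = (∫⁻ x, edist x o ^ 2 ∂ν') * μ' univ := by
      have := lintegral_prod_mul (μ := μ') (ν := ν') (f := fun _ => 1) (g := fun x => edist x o ^ 2)
        aemeasurable_const hmeas.aemeasurable
      simpa [mul_comm] using this
    rw [e1, e2]
  calc (μ' univ)⁻¹ * QuadraticTransportCost (μ'.prod ν')
      ≤ (μ' univ)⁻¹ * (2 * ((∫⁻ x, edist x o ^ 2 ∂μ') * ν' univ)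
          + 2 * ((∫⁻ x, edist x o ^ 2 ∂ν') * μ' univ)) := by gcongr
    _ = 2 * (∫⁻ x, edist x o ^ 2 ∂μ') * ((μ' univ)⁻¹ * μ' univ)
          + 2 * (∫⁻ x, edist x o ^ 2 ∂ν') * ((μ' univ)⁻¹ * μ' univ) := by rw [← hm]; ring
    _ = 2 * ∫⁻ x, edist x o ^ 2 ∂μ' + 2 * ∫⁻ x, edist x o ^ 2 ∂ν' := by
        rw [ENNReal.inv_mul_cancel hz hc1, mul_one, mul_one]

omit [MetricSpace X] [BorelSpace X] [CompleteSpace X] [TopologicalSpace.SeparableSpace X] in
/-- splitting of a density: `ρ m = min(ρ,ρ') m + (ρ-ρ')₊ m`. -/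
theorem ev_dens_split (hm : AEStronglyMeasurable ρ m) (hm' : AEStronglyMeasurable ρ' m)
    (h0 : ∀ᵐ x ∂m, 0 ≤ ρ x) (h0' : ∀ᵐ x ∂m, 0 ≤ ρ' x) :
    dens m ρ = dens m (fun x => min (ρ x) (ρ' x)) + dens m (fun x => ρ x - ρ' x) := by
  set r := hm.mk ρ with hr
  set r' := hm'.mk ρ' with hr'
  have e : ρ =ᵐ[m] r := hm.ae_eq_mk
  have e' : ρ' =ᵐ[m] r' := hm'.ae_eq_mk
  have hrm : Measurable r := hm.stronglyMeasurable_mk.measurable
  have hrm' : Measurable r' := hm'.stronglyMeasurable_mk.measurable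
  have h1 : dens m (fun x => min (ρ x) (ρ' x)) = dens m (fun x => min (r x) (r' x)) := by
    apply withDensity_congr_ae
    filter_upwards [e, e'] with x hx hx'
    rw [hx, hx']
  have h2 : dens m (fun x => ρ x - ρ' x) = dens m (fun x => r x - r' x) := by
    apply withDensity_congr_ae
    filter_upwards [e, e'] with x hx hx'
    rw [hx, hx']
  rw [h1, h2]
  unfold dens
  rw [← withDensity_add_left (hrm.min hrm').ennreal_ofReal]
  apply withDensity_congr_ae
  filter_upwards [e, e', h0, h0'] with x hx hx' hx0 hx0'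
  simp only [Pi.add_apply]
  rw [← hx, ← hx']
  rcases le_total (ρ x) (ρ' x) with hle | hle
  · rw [min_eq_left hle, ENNReal.ofReal_of_nonpos (sub_nonpos.2 hle), add_zero]
  · rw [min_eq_right hle, ← ENNReal.ofReal_add hx0' (sub_nonneg.2 hle)]
    congr 1; ring

/-- `W²(ρ m, ρ' m) ≤ 2 ∫ ζ² |ρ - ρ'| dm`:   `ev_W2_le_abs` with `η = min(ρ,ρ') m`, `μ' = (ρ-ρ')₊ m`, `ν' = (ρ'-ρ)₊ m`
(`withDensity_add_left`/`right`, `ENNReal.ofReal_add`; equal masses since `∫ ρ = ∫ ρ' = 1`; `lintegral_withDensity_eq_lintegral_mul₀`; `Basic.ev_nice_moment` `k = 2`). -/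
theorem ev_W2_le (ha : GoodExp m o a) (hρ : NiceDens m o a B ρ) (hρ' : NiceDens m o a B' ρ') :
    W2sqR (dens m ρ) (dens m ρ') ≤ 2 * ∫ x, dist x o ^ 2 * |ρ x - ρ' x| ∂m := by
  have hP := ev_dens_prob hρ
  have hP' := ev_dens_prob hρ'
  have s1 := ev_dens_split hρ.meas hρ'.meas hρ.nonneg hρ'.nonneg
  have s2 := ev_dens_split hρ'.meas hρ.meas hρ'.nonneg hρ.nonneg
  have hmin : (fun x => min (ρ' x) (ρ x)) = fun x => min (ρ x) (ρ' x) := by
    funext x; exact min_comm _ _
  rw [hmin] at s2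
  set η := dens m (fun x => min (ρ x) (ρ' x)) with hη
  set μ' := dens m (fun x => ρ x - ρ' x) with hμ'
  set ν' := dens m (fun x => ρ' x - ρ x) with hν'
  have : IsFiniteMeasure η :=
    isFiniteMeasure_withDensity_ofReal (hρ.int.inf hρ'.int).2
  have : IsFiniteMeasure μ' :=
    isFiniteMeasure_withDensity_ofReal (hρ.int.sub hρ'.int).2
  have : IsFiniteMeasure ν' :=
    isFiniteMeasure_withDensity_ofReal (hρ'.int.sub hρ.int).2
  have hmass : μ' univ = ν' univ := by
    have t1 : η univ + μ' univ = 1 := by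
      rw [← Measure.add_apply, ← s1]; exact hP.measure_univ
    have t2 : η univ + ν' univ = 1 := by
      rw [← Measure.add_apply, ← s2]; exact hP'.measure_univ
    exact (ENNReal.add_right_inj (measure_ne_top η univ)).1 (t1.trans t2.symm)
  have key := ev_W2_le_abs (η := η) hmass o
  rw [← s1, ← s2] at key
  -- the integrable majorant
  have hint : Integrable (fun x => dist x o ^ 2 * |ρ x - ρ' x|) m := by
    have i1 := ev_nice_moment ha hρ 2
    have i2 := ev_nice_moment ha hρ' 2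
    refine (i1.add i2).mono' ?_ ?_
    · exact ((continuous_id.dist continuous_const).pow 2).aestronglyMeasurable.mul
        (hρ.meas.sub hρ'.meas).norm
    · filter_upwards [hρ.nonneg, hρ'.nonneg] with x hx hx'
      have hd : 0 ≤ dist x o ^ 2 := by positivity
      rw [Real.norm_eq_abs, abs_mul, abs_abs, abs_of_nonneg hd]
      have : |ρ x - ρ' x| ≤ ρ x + ρ' x := by
        rw [abs_le]; constructor <;> linarith
      simp only [Pi.add_apply]
      nlinarith
  have hmeasE : AEMeasurable (fun x : X => edist x o ^ 2) m :=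
    ((continuous_id.edist continuous_const).measurable.pow_const 2).aemeasurable
  have c1 : ∫⁻ x, edist x o ^ 2 ∂μ' = ∫⁻ x, ENNReal.ofReal (ρ x - ρ' x) * edist x o ^ 2 ∂m := by
    have hA : AEMeasurable (fun x => ENNReal.ofReal (ρ x - ρ' x)) m :=
      (hρ.meas.sub hρ'.meas).aemeasurable.ennreal_ofReal
    exact lintegral_withDensity_eq_lintegral_mul₀ hA hmeasE
  have c2 : ∫⁻ x, edist x o ^ 2 ∂ν' = ∫⁻ x, ENNReal.ofReal (ρ' x - ρ x) * edist x o ^ 2 ∂m := by
    have hA : AEMeasurable (fun x => ENNReal.ofReal (ρ' x - ρ x)) m :=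
      (hρ'.meas.sub hρ.meas).aemeasurable.ennreal_ofReal
    exact lintegral_withDensity_eq_lintegral_mul₀ hA hmeasE
  have c3 : ∫⁻ x, edist x o ^ 2 ∂μ' + ∫⁻ x, edist x o ^ 2 ∂ν'
      = ENNReal.ofReal (∫ x, dist x o ^ 2 * |ρ x - ρ' x| ∂m) := by
    have hA : AEMeasurable (fun x => ENNReal.ofReal (ρ x - ρ' x) * edist x o ^ 2) m :=
      (hρ.meas.sub hρ'.meas).aemeasurable.ennreal_ofReal.mul hmeasE
    rw [c1, c2, ← lintegral_add_left' hA,
      ofReal_integral_eq_lintegral_ofReal hint (Eventually.of_forall fun x => by positivity)]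
    apply lintegral_congr
    intro x
    have hd : 0 ≤ dist x o ^ 2 := by positivity
    rw [← add_mul, edist_dist, ← ENNReal.ofReal_pow dist_nonneg, mul_comm (dist x o ^ 2),
      ENNReal.ofReal_mul (abs_nonneg _)]
    congr 1
    rcases le_total (ρ x) (ρ' x) with hle | hle
    · rw [ENNReal.ofReal_of_nonpos (sub_nonpos.2 hle), zero_add, abs_of_nonpos (sub_nonpos.2 hle), neg_sub]
    · rw [ENNReal.ofReal_of_nonpos (sub_nonpos.2 hle), add_zero, abs_of_nonneg (sub_nonneg.2 hle)]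
  rw [← mul_add, c3] at key
  have hnn : 0 ≤ ∫ x, dist x o ^ 2 * |ρ x - ρ' x| ∂m := integral_nonneg fun x => by positivity
  unfold W2sqR
  calc (W2sq (dens m ρ) (dens m ρ')).toReal
      ≤ (2 * ENNReal.ofReal (∫ x, dist x o ^ 2 * |ρ x - ρ' x| ∂m)).toReal :=
        ENNReal.toReal_mono (ENNReal.mul_ne_top (by simp) ENNReal.ofReal_ne_top) key
    _ = 2 * ∫ x, dist x o ^ 2 * |ρ x - ρ' x| ∂m := by
        rw [ENNReal.toReal_mul, ENNReal.toReal_ofReal hnn]; simp

/-- **continuity of `W₂`**:  `|√W²(ρ_i m,σ) - √W²(ρ m,σ)| ≤ √W²(ρ_i m, ρ m) → 0`  (`ot_triangle_real`, `ot_W2sq_comm`, `ev_W2_le`, `ev_W2_ne_top`), then square. -/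
theorem ev_W2_tendsto {ι : Type*} {l : Filter ι} (ha : GoodExp m o a) {ρs : ι → X → ℝ} {Bs : ι → ℝ}
    (hρs : ∀ᶠ i in l, NiceDens m o a (Bs i) (ρs i)) (hρ : NiceDens m o a B ρ)
    (hlim : Tendsto (fun i => ∫ x, dist x o ^ 2 * |ρs i x - ρ x| ∂m) l (𝓝 0))
    (hσ : IsProbabilityMeasure σ) (h2 : HasSecondMoment σ) :
    Tendsto (fun i => W2sqR (dens m (ρs i)) σ) l (𝓝 (W2sqR (dens m ρ) σ)) := by
  have hP := ev_dens_prob hρ
  have hM := ev_nice_secondMoment ha hρ
  have hd : Tendsto (fun i => Real.sqrt (2 * ∫ x, dist x o ^ 2 * |ρs i x - ρ x| ∂m)) l (𝓝 0) := by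
    have h := (hlim.const_mul 2).sqrt
    simpa using h
  have hs : Tendsto (fun i => Real.sqrt (W2sqR (dens m (ρs i)) σ)) l
      (𝓝 (Real.sqrt (W2sqR (dens m ρ) σ))) := by
    rw [tendsto_iff_dist_tendsto_zero]
    refine squeeze_zero' (Eventually.of_forall fun i => dist_nonneg) ?_ hd
    filter_upwards [hρs] with i hi
    have hPi := ev_dens_prob hi
    have hMi := ev_nice_secondMoment ha hi
    have t1 := ot_triangle_moment hPi hP hσ hMi hM h2
    have t2 := ot_triangle_moment hP hPi hσ hM hMi h2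
    have hc : W2sqR (dens m ρ) (dens m (ρs i)) = W2sqR (dens m (ρs i)) (dens m ρ) := by
      unfold W2sqR
      rw [ot_W2sq_comm]
    rw [hc] at t2
    have hle : Real.sqrt (W2sqR (dens m (ρs i)) (dens m ρ))
        ≤ Real.sqrt (2 * ∫ x, dist x o ^ 2 * |ρs i x - ρ x| ∂m) :=
      Real.sqrt_le_sqrt (ev_W2_le ha hi hρ)
    rw [Real.dist_eq, abs_le]
    constructor <;> linarith
  have h3 := hs.pow 2
  have e : ∀ μ : Measure X, Real.sqrt (W2sqR μ σ) ^ 2 = W2sqR μ σ := fun μ =>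
    Real.sq_sqrt ENNReal.toReal_nonneg
  simpa only [e] using h3

/-- two-fold AM-GM interpolation:  `|w| ≤ w²/(4αβ) + (β/(4α)) p² w² + (α/2) p⁻¹`. -/
theorem ev_interp_le {α β p w : ℝ} (hα : 0 < α) (hβ : 0 < β) (hp : 0 < p) :
    |w| ≤ 1 / (4 * α * β) * w ^ 2 + β / (4 * α) * (p ^ 2 * w ^ 2) + α / 2 * p⁻¹ := by
  have h1 : 0 ≤ (|w| - β * p * |w|) ^ 2 / (4 * α * β) := by positivity
  have h2 : 0 ≤ (p * |w| - α) ^ 2 / (2 * α * p) := by positivity
  have e : 1 / (4 * α * β) * w ^ 2 + β / (4 * α) * (p ^ 2 * w ^ 2) + α / 2 * p⁻¹ - |w|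
      = (|w| - β * p * |w|) ^ 2 / (4 * α * β) + (p * |w| - α) ^ 2 / (2 * α * p) := by
    rw [← sq_abs w]
    field_simp
    ring
  linarith

/-- `∫ w² = (‖w‖₂²).toReal`. -/
theorem ev_integral_sq_eq (w : X → ℝ) (hw : AEStronglyMeasurable w m) :
    ∫ x, w x ^ 2 ∂m = ((eLpNorm w 2 m) ^ 2).toReal := by
  have h := eLpNorm_nnreal_pow_eq_lintegral (μ := m) (f := w) (p := 2) (by norm_num)
  rw [integral_eq_lintegral_of_nonneg_ae (Eventually.of_forall fun x => sq_nonneg _)
    (hw.pow 2)]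
  congr 1
  have h' : eLpNorm w 2 m ^ 2 = ∫⁻ x, ‖w x‖ₑ ^ 2 ∂m := by
    simpa using h
  rw [h']
  refine lintegral_congr fun x => ?_
  rw [← sq_abs, ENNReal.ofReal_pow (abs_nonneg _), Real.enorm_eq_ofReal_abs]

/-- `L¹` bound by interpolation. -/
theorem ev_L1_le (ha : GoodExp m o a) {w : X → ℝ} (hw : Integrable w m)
    (hw2 : Integrable (fun x => Real.exp (2 * a * dist x o) * w x ^ 2) m) {α β : ℝ} (hα : 0 < α) (hβ : 0 < β) :
    ∫ x, |w x| ∂m ≤ 1 / (4 * α * β) * ∫ x, w x ^ 2 ∂m + β / (4 * α) * ev_tail m o a w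
      + α / 2 * ∫ x, Real.exp (-a * dist x o) ∂m := by
  have hE : Integrable (fun x => Real.exp (-a * dist x o)) m :=
    ev_exp_integrable ha (by linarith [ha.1])
  have hs : Integrable (fun x => w x ^ 2) m := by
    refine hw2.mono' (hw.aestronglyMeasurable.pow 2) (Eventually.of_forall fun x => ?_)
    rw [Real.norm_eq_abs, abs_of_nonneg (sq_nonneg _)]
    have : 1 ≤ Real.exp (2 * a * dist x o) := Real.one_le_exp (by have := ha.1; positivity)
    nlinarith [sq_nonneg (w x)]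
  have hpt : ∀ x, |w x| ≤ 1 / (4 * α * β) * w x ^ 2
      + β / (4 * α) * (Real.exp (2 * a * dist x o) * w x ^ 2) + α / 2 * Real.exp (-a * dist x o) := by
    intro x
    have h := ev_interp_le (w := w x) hα hβ (Real.exp_pos (a * dist x o))
    have e1 : Real.exp (a * dist x o) ^ 2 = Real.exp (2 * a * dist x o) := by
      rw [← Real.exp_nat_mul]; congr 1; push_cast; ring
    have e2 : (Real.exp (a * dist x o))⁻¹ = Real.exp (-a * dist x o) := by
      rw [← Real.exp_neg]; congr 1; ring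
    rwa [e1, e2] at h
  have i1 : Integrable (fun x => 1 / (4 * α * β) * w x ^ 2) m := hs.const_mul _
  have i2 : Integrable (fun x => β / (4 * α) * (Real.exp (2 * a * dist x o) * w x ^ 2)) m :=
    hw2.const_mul _
  have i3 : Integrable (fun x => α / 2 * Real.exp (-a * dist x o)) m := hE.const_mul _
  have i12 : Integrable (fun x => 1 / (4 * α * β) * w x ^ 2
      + β / (4 * α) * (Real.exp (2 * a * dist x o) * w x ^ 2)) m := i1.add i2
  calc ∫ x, |w x| ∂m ≤ ∫ x, (1 / (4 * α * β) * w x ^ 2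
      + β / (4 * α) * (Real.exp (2 * a * dist x o) * w x ^ 2) + α / 2 * Real.exp (-a * dist x o)) ∂m :=
        integral_mono hw.abs (i12.add i3) hpt
    _ = _ := by
        rw [integral_add i12 i3, integral_add i1 i2, integral_const_mul, integral_const_mul,
          integral_const_mul]
        rfl

/-- `L²` convergence with uniform weighted bounds implies weak convergence of the measures.
For `φ` bounded continuous: `|∫ φ (u_n - u)| ≤ sup|φ| ∫ |u_n - u|`, and for every `R`: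
`∫ |u_n - u| ≤ (m B_R)^{1/2} ‖u_n - u‖₂ + ∫_{B_R^c} (u_n + u)`,  `∫_{B_R^c} v ≤ (∫ e^{2aζ} v² + ∫_{B_R^c} e^{-2aζ})/2·…`;   simplest: `v = (λ e^{aζ} v)(e^{-aζ}/λ) ≤ (λ² e^{2aζ} v² + e^{-2aζ}/λ²)/2`, first choose `λ` small, then `R` large (`Basic.ev_tail_tendsto`), then `n` large. -/
theorem ev_wconv_of_L2 (hfin : FiniteOnBoundedSets m) (ha : GoodExp m o a) {us : ℕ → X → ℝ} {u : X → ℝ} {T : ℝ}
    (hus : ∀ n, NiceDens m o a B (us n)) (hT : ∀ n, ev_tail m o a (us n) ≤ T) (hu : NiceDens m o a B u)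
    (hlim : Tendsto (fun n => eLpNorm (fun x => us n x - u x) 2 m) atTop (𝓝 0)) :
    ot_WConv (fun n => dens m (us n)) (dens m u) := by
  -- notation
  set E : ℝ := ∫ x, Real.exp (-a * dist x o) ∂m with hE
  have hE0 : 0 ≤ E := integral_nonneg fun x => (Real.exp_pos _).le
  set W : ℝ := 2 * T + 2 * ev_tail m o a u with hW
  have hwi : ∀ n, Integrable (fun x => us n x - u x) m := fun n => (hus n).int.sub hu.int
  have hcm : AEStronglyMeasurable (fun x => Real.exp (2 * a * dist x o)) m :=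
    (by fun_prop : Continuous fun x => Real.exp (2 * a * dist x o)).aestronglyMeasurable
  have hpt : ∀ n x, Real.exp (2 * a * dist x o) * (us n x - u x) ^ 2
      ≤ 2 * (Real.exp (2 * a * dist x o) * us n x ^ 2) + 2 * (Real.exp (2 * a * dist x o) * u x ^ 2) := by
    intro n x
    have h1 : (us n x - u x) ^ 2 ≤ 2 * us n x ^ 2 + 2 * u x ^ 2 := by nlinarith [sq_nonneg (us n x + u x)]
    have := mul_le_mul_of_nonneg_left h1 (Real.exp_pos (2 * a * dist x o)).le
    linarith
  have hw2 : ∀ n, Integrable (fun x => Real.exp (2 * a * dist x o) * (us n x - u x) ^ 2) m := by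
    intro n
    refine (((hus n).tail.const_mul 2).add (hu.tail.const_mul 2)).mono'
      (hcm.mul ((hwi n).aestronglyMeasurable.pow 2)) (Eventually.of_forall fun x => ?_)
    rw [Real.norm_eq_abs, abs_of_nonneg (by positivity)]
    exact hpt n x
  have hWn : ∀ n, ev_tail m o a (fun x => us n x - u x) ≤ W := by
    intro n
    calc ev_tail m o a (fun x => us n x - u x)
        ≤ ∫ x, (2 * (Real.exp (2 * a * dist x o) * us n x ^ 2)
            + 2 * (Real.exp (2 * a * dist x o) * u x ^ 2)) ∂m :=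
          integral_mono (hw2 n) (((hus n).tail.const_mul 2).add (hu.tail.const_mul 2)) (hpt n)
      _ = 2 * ev_tail m o a (us n) + 2 * ev_tail m o a u := by
          rw [integral_add ((hus n).tail.const_mul 2) (hu.tail.const_mul 2), integral_const_mul,
            integral_const_mul]
          rfl
      _ ≤ W := by have := hT n; linarith
  have hW0 : 0 ≤ W := le_trans (integral_nonneg fun x => by positivity) (hWn 0)
  -- `∫ w_n² → 0`
  have hs : Tendsto (fun n => ∫ x, (us n x - u x) ^ 2 ∂m) atTop (𝓝 0) := by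
    have h1 : Tendsto (fun n => ((eLpNorm (fun x => us n x - u x) 2 m) ^ 2).toReal) atTop (𝓝 0) := by
      have h2 : Tendsto (fun n => (eLpNorm (fun x => us n x - u x) 2 m) ^ 2) atTop (𝓝 ((0 : ℝ≥0∞) ^ 2)) :=
        ((ENNReal.continuous_pow 2).tendsto 0).comp hlim
      have h3 := (ENNReal.tendsto_toReal (a := (0 : ℝ≥0∞) ^ 2) (by simp)).comp h2
      have e0 : ((0 : ℝ≥0∞) ^ 2).toReal = 0 := by simp
      rw [e0] at h3
      exact h3
    refine h1.congr fun n => ?_
    exact (ev_integral_sq_eq (fun x => us n x - u x) (hwi n).aestronglyMeasurable).symm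
  -- `∫ |w_n| → 0`
  have hL1 : Tendsto (fun n => ∫ x, |us n x - u x| ∂m) atTop (𝓝 0) := by
    rw [Metric.tendsto_atTop]
    intro ε hε
    set α : ℝ := 2 * (ε / (3 * (E + 1))) with hα
    have hα0 : 0 < α := by positivity
    set β : ℝ := 4 * α * (ε / (3 * (W + 1))) with hβ
    have hβ0 : 0 < β := by positivity
    have hA : 0 < 1 / (4 * α * β) := by positivity
    have hev : ∀ᶠ n in atTop, ∫ x, (us n x - u x) ^ 2 ∂m < (ε / 3) / (1 / (4 * α * β)) :=
      (tendsto_order.1 hs).2 _ (by positivity)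
    obtain ⟨N, hN⟩ := eventually_atTop.1 hev
    refine ⟨N, fun n hn => ?_⟩
    have h0 : 0 ≤ ∫ x, |us n x - u x| ∂m := integral_nonneg fun x => abs_nonneg _
    rw [Real.dist_eq, sub_zero, abs_of_nonneg h0]
    have hb := ev_L1_le ha (hwi n) (hw2 n) hα0 hβ0
    have t1 : 1 / (4 * α * β) * ∫ x, (us n x - u x) ^ 2 ∂m < ε / 3 := by
      have := hN n hn
      rwa [lt_div_iff₀ hA, mul_comm] at this
    have t2 : β / (4 * α) * ev_tail m o a (fun x => us n x - u x) ≤ ε / 3 := by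
      have e : β / (4 * α) = ε / (3 * (W + 1)) := by rw [hβ]; field_simp
      rw [e]
      calc ε / (3 * (W + 1)) * ev_tail m o a (fun x => us n x - u x)
          ≤ ε / (3 * (W + 1)) * W := mul_le_mul_of_nonneg_left (hWn n) (by positivity)
        _ ≤ ε / 3 := by
          rw [div_mul_eq_mul_div, div_le_div_iff₀ (by positivity) (by norm_num)]
          nlinarith
    have t3 : α / 2 * E ≤ ε / 3 := by
      have e : α / 2 = ε / (3 * (E + 1)) := by rw [hα]; ring
      rw [e, div_mul_eq_mul_div, div_le_div_iff₀ (by positivity) (by norm_num)]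
      nlinarith
    linarith
  -- conclusion
  intro f
  have hfm : AEStronglyMeasurable (fun x => f x) m := f.continuous.aestronglyMeasurable
  have hfb : ∀ᵐ x ∂m, ‖f x‖ ≤ ‖f‖ := Eventually.of_forall fun x => f.norm_coe_le_norm x
  have e1 : ∀ n, ∫ x, f x ∂(dens m (us n)) = ∫ x, f x * us n x ∂m := fun n =>
    ev_integral_dens (hus n).meas (hus n).nonneg f
  have e2 : ∫ x, f x ∂(dens m u) = ∫ x, f x * u x ∂m := ev_integral_dens hu.meas hu.nonneg f
  simp only [e1, e2]
  rw [tendsto_iff_dist_tendsto_zero]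
  have hup : Tendsto (fun n => ‖f‖ * ∫ x, |us n x - u x| ∂m) atTop (𝓝 0) := by
    simpa using hL1.const_mul ‖f‖
  refine squeeze_zero (fun n => dist_nonneg) (fun n => ?_) hup
  have i1 : Integrable (fun x => f x * us n x) m := (hus n).int.bdd_mul hfm hfb
  have i2 : Integrable (fun x => f x * u x) m := hu.int.bdd_mul hfm hfb
  rw [Real.dist_eq, ← integral_sub i1 i2, ← integral_const_mul]
  refine (abs_integral_le_integral_abs).trans ?_
  refine integral_mono (i1.sub i2).abs ((hwi n).abs.const_mul _) fun x => ?_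
  show |f x * us n x - f x * u x| ≤ ‖f‖ * |us n x - u x|
  rw [← mul_sub, abs_mul]
  exact mul_le_mul_of_nonneg_right (f.norm_coe_le_norm x) (abs_nonneg _)

end Claimed.Agent.R210.EV.Wass
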