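/-
Row 210 (S0432), layer EV: the reference density `θ = ev_theta m o a = e^{-3aζ}/∫e^{-3aζ}` and the perturbation `ev_pert m o a η g = (1-η) g + η θ`.      Architect helper948.
`ev_Good m o a B ρ` = nice + frozen Sobolev + `e^{2aζ} |Dρ|²` integrable.
Tools: GC/Ifc.lean (calculus of `weakGradient`, `gamma`: black boxes), EV/Basic.lean, EV/Wass.lean.    Every `sorry` is an independent leaf; earlier statements may be used.
-/
import Claimed.Agent.R210.EV.Wass
import Claimed.Agent.R210.GC.Ifc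

set_option autoImplicit false

open Claims.C0366 Claims.C0366.WeakHessian
open Set Filter MeasureTheory
open scoped ENNReal NNReal Topology

namespace Claimed.Agent.R210.EV.Pert

open Claimed.Agent.R210.Defs Claimed.Agent.R210.Defs2 Claimed.Agent.R210.EV.Defs Claimed.Agent.R210.EV.Basic
  Claimed.Agent.R210.EV.Wass Claimed.Agent.R210.GC.Defs Claimed.Agent.R210.GC.WG Claimed.Agent.R210.GC.Gam

variable {X : Type*} [MetricSpace X] [MeasurableSpace X] [BorelSpace X]
  [CompleteSpace X] [TopologicalSpace.SeparableSpace X] [ProperSpace X]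
variable {m σ : Measure X} {K N a B B' η c : ℝ} {o : X} {g v : X → ℝ}

/-! ### `θ` -/

/-- the integrand is positive, integrable (`Basic.ev_exp_integrable`, `a/4 ≤ 3a`) and `m ≠ 0` (`hfull univ`): `integral_pos_iff_support_of_nonneg`. -/
theorem ev_vth_pos (hfull : FullSupport m) (ha : GoodExp m o a) : 0 < ∫ y, Real.exp (-(3 * a) * dist y o) ∂m := by
  have hi : Integrable (fun y => Real.exp (-(3 * a) * dist y o)) m :=
    ev_exp_integrable ha (by linarith [ha.1])
  rw [integral_pos_iff_support_of_nonneg (fun y => (Real.exp_pos _).le) hi]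
  have hs : Function.support (fun y => Real.exp (-(3 * a) * dist y o)) = univ := by
    ext y
    simp [Real.exp_ne_zero]
  rw [hs]
  exact hfull univ isOpen_univ ⟨o, mem_univ o⟩

theorem ev_theta_pos (hfull : FullSupport m) (ha : GoodExp m o a) (x : X) : 0 < ev_theta m o a x :=
  div_pos (Real.exp_pos _) (ev_vth_pos hfull ha)

/-- `θ = φ ∘ ζ`, `φ t = e^{-3at}/ϑ` is `C¹`, `|φ'(ζ)| = 3aθ`;  `gc_wg_comp_C1`, `gc_wg_dist_le`, `gc_ls_of_lipLoc`, `gc_lipLoc_dist`, `gc_ls_comp_C1`, `gc_locBdd_of_lipLoc`. -/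
theorem ev_theta_grad_le (hS : Std m K N) (ha : GoodExp m o a) :
    LocalSobolev m (ev_theta m o a) ∧ ∀ᵐ x ∂m, weakGradient m (ev_theta m o a) x ≤ 3 * a * ev_theta m o a x := by
  have hfin := hS.finite
  set V : ℝ := ∫ y, Real.exp (-(3 * a) * dist y o) ∂m with hV
  have hVpos : 0 < V := ev_vth_pos hS.full ha
  set φ : ℝ → ℝ := fun t => Real.exp (-(3 * a) * t) / V with hφ
  have hφC : ContDiff ℝ 1 φ := by
    apply ContDiff.div_const
    exact Real.contDiff_exp.comp (contDiff_const.mul contDiff_id)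
  have hd : ∀ t, deriv φ t = -(3 * a) * φ t := by
    intro t
    have h1 : HasDerivAt (fun t : ℝ => -(3 * a) * t) (-(3 * a)) t := by
      simpa using (hasDerivAt_id' t).const_mul (-(3 * a))
    have h2 : HasDerivAt φ (Real.exp (-(3 * a) * t) * (-(3 * a)) / V) t := h1.exp.div_const V
    rw [h2.deriv, hφ]
    ring
  have hls : LocalSobolev m (fun z => dist z o) := gc_ls_of_lipLoc hfin (gc_lipLoc_dist o)
  have hlb : gc_LocBdd m (fun z => dist z o) := gc_locBdd_of_lipLoc (gc_lipLoc_dist o)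
  have hcomp : LocalSobolev m (fun x => φ (dist x o)) := gc_ls_comp_C1 hfin hφC hls hlb
  have he : ev_theta m o a = fun x => φ (dist x o) := rfl
  refine ⟨he ▸ hcomp, ?_⟩
  rw [he]
  filter_upwards [gc_wg_comp_C1 hfin hφC hls hcomp, gc_wg_dist_le hfin o] with x h1 h2
  rw [h1, hd]
  have hφpos : 0 < φ (dist x o) := div_pos (Real.exp_pos _) hVpos
  have h3 : |-(3 * a) * φ (dist x o)| = 3 * a * φ (dist x o) := by
    rw [abs_mul, abs_neg, abs_of_pos (by linarith [ha.1] : 0 < 3 * a), abs_of_pos hφpos]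
  rw [h3]
  have h4 : 0 ≤ 3 * a * φ (dist x o) := by
    have := ha.1
    positivity
  calc 3 * a * φ (dist x o) * weakGradient m (fun z => dist z o) x
      ≤ 3 * a * φ (dist x o) * 1 := mul_le_mul_of_nonneg_left h2 h4
    _ = 3 * a * φ (dist x o) := mul_one _

/-- `e^{2aζ} θ² = e^{-4aζ}/ϑ²`. -/
theorem ev_theta_sq_eq (m : Measure X) (o : X) (a : ℝ) (x : X) :
    Real.exp (2 * a * dist x o) * ev_theta m o a x ^ 2
      = Real.exp (-(4 * a) * dist x o) / (∫ y, Real.exp (-(3 * a) * dist y o) ∂m) ^ 2 := by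
  unfold ev_theta
  rw [div_pow, ← Real.exp_nat_mul, ← mul_div_assoc, ← Real.exp_add]
  congr 2
  push_cast
  ring

/-- `θ ≤ 1/ϑ`, `∫ θ = 1`, `e^{2aζ} θ² = e^{-4aζ}/ϑ²`, `e^{2aζ}|Dθ|² ≤ 9a² e^{-4aζ}/ϑ²` (`ev_theta_grad_le`, `gc_wg_nonneg`, `gc_wg_aesm`), Sobolev by `gc_sob_of_ls` with `D = 3aθ`. -/
theorem ev_theta_good (hS : Std m K N) (ha : GoodExp m o a) :
    ev_Good m o a (1 / ∫ y, Real.exp (-(3 * a) * dist y o) ∂m) (ev_theta m o a) := by
  have hfin := hS.finite
  have ha0 := ha.1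
  have hVpos : 0 < ∫ y, Real.exp (-(3 * a) * dist y o) ∂m := ev_vth_pos hS.full ha
  obtain ⟨hls, hgr⟩ := ev_theta_grad_le hS ha
  have hi3 : Integrable (fun y => Real.exp (-(3 * a) * dist y o)) m :=
    ev_exp_integrable ha (by linarith)
  have hi4 : Integrable (fun y => Real.exp (-(4 * a) * dist y o)) m :=
    ev_exp_integrable ha (by linarith)
  have hi6 : Integrable (fun y => Real.exp (-(6 * a) * dist y o)) m :=
    ev_exp_integrable ha (by linarith)
  have hint : Integrable (ev_theta m o a) m := hi3.div_const _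
  have htail : Integrable (fun x => Real.exp (2 * a * dist x o) * ev_theta m o a x ^ 2) m := by
    have : (fun x => Real.exp (2 * a * dist x o) * ev_theta m o a x ^ 2)
        = fun x => Real.exp (-(4 * a) * dist x o) / (∫ y, Real.exp (-(3 * a) * dist y o) ∂m) ^ 2 :=
      funext fun x => ev_theta_sq_eq m o a x
    rw [this]
    exact hi4.div_const _
  have hsq : Integrable (fun x => ev_theta m o a x ^ 2) m := by
    have : (fun x => ev_theta m o a x ^ 2)
        = fun x => Real.exp (-(6 * a) * dist x o) / (∫ y, Real.exp (-(3 * a) * dist y o) ∂m) ^ 2 := by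
      funext x
      unfold ev_theta
      rw [div_pow, ← Real.exp_nat_mul]
      congr 2
      push_cast
      ring
    rw [this]
    exact hi6.div_const _
  have hL2 : MemLp (ev_theta m o a) 2 m := (memLp_two_iff_integrable_sq hint.aestronglyMeasurable).2 hsq
  refine ⟨⟨hint.aestronglyMeasurable, Eventually.of_forall fun x => (ev_theta_pos hS.full ha x).le,
    Eventually.of_forall fun x => ?_, hint, ?_, htail⟩, ?_, ?_⟩
  · unfold ev_theta
    apply div_le_div_of_nonneg_right _ hVpos.le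
    rw [Real.exp_le_one_iff]
    have : 0 ≤ dist x o := dist_nonneg
    nlinarith
  · unfold ev_theta
    rw [integral_div, div_self hVpos.ne']
  · exact gc_sob_of_ls hfin hls hL2 (hL2.const_mul (3 * a)) hgr
  · refine Integrable.mono' (htail.const_mul (9 * a ^ 2)) ?_ ?_
    · exact ((Real.continuous_exp.comp (continuous_const.mul (continuous_id.dist continuous_const))).aestronglyMeasurable).mul
        ((gc_wg_aesm _).pow 2)
    · filter_upwards [hgr, gc_wg_nonneg (m := m) (ev_theta m o a)] with x h1 h2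
      have he : 0 < Real.exp (2 * a * dist x o) := Real.exp_pos _
      rw [Real.norm_eq_abs, abs_of_nonneg (by positivity)]
      have h3 : weakGradient m (ev_theta m o a) x ^ 2 ≤ (3 * a * ev_theta m o a x) ^ 2 :=
        pow_le_pow_left₀ h2 h1 2
      calc Real.exp (2 * a * dist x o) * weakGradient m (ev_theta m o a) x ^ 2
          ≤ Real.exp (2 * a * dist x o) * (3 * a * ev_theta m o a x) ^ 2 :=
            mul_le_mul_of_nonneg_left h3 he.le
        _ = 9 * a ^ 2 * (Real.exp (2 * a * dist x o) * ev_theta m o a x ^ 2) := by ring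

/-! ### good densities -/

/-- `ζ^k |Dρ|` is integrable (`Basic.ev_weighted_integrable` with `u = |Dρ|`, `gc_wg_aesm`, `gc_wg_nonneg`). -/
theorem ev_good_grad_integrable (ha : GoodExp m o a) (h : ev_Good m o a B g) (k : ℕ) :
    Integrable (fun x => dist x o ^ k * weakGradient m g x) m := by
  have h1 := (ev_weighted_integrable ha (gc_wg_aesm (m := m) g) h.grad k).1
  refine h1.congr ?_
  filter_upwards [gc_wg_nonneg (m := m) g] with x hx
  rw [abs_of_nonneg hx]

/-- `(ζ + c)|Dρ|` is integrable. -/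
theorem ev_good_grad_integrable' (ha : GoodExp m o a) (h : ev_Good m o a B g) (c : ℝ) :
    Integrable (fun x => (dist x o + c) * weakGradient m g x) m := by
  have h1 := ev_good_grad_integrable ha h 1
  have h0 := (ev_good_grad_integrable ha h 0).const_mul c
  refine (h1.add h0).congr (Eventually.of_forall fun x => ?_)
  simp only [Pi.add_apply, pow_one, pow_zero, one_mul]
  ring

/-- `|Γ(g,v)| ≤ |Dg||Dv| ≤ (ζ + c)|Dg|` a.e. if the slope of the Lipschitz function `v` is `≤ ζ + c`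
(`gc_gamma_abs_le`, `gc_wg_le_slope`, `gc_lipLoc_of_lip`, `gc_ls_of_lipLoc`, `gc_wg_nonneg`; `ENNReal.ofReal_le_ofReal_iff`). -/
theorem ev_gamma_abs_le (hS : Std m K N) (h : LocalSobolev m g) (hv : GloballyLipschitz v) (hc : 0 ≤ c)
    (hsl : ∀ x, localSlope v x ≤ ENNReal.ofReal (dist x o + c)) :
    ∀ᵐ x ∂m, |gamma m g v x| ≤ (dist x o + c) * weakGradient m g x := by
  have hfin := hS.finite
  have hl : gc_LipLoc v := gc_lipLoc_of_lip hv
  filter_upwards [gc_gamma_abs_le hS h (gc_ls_of_lipLoc hfin hl), gc_wg_le_slope hfin hl,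
    gc_wg_nonneg (m := m) g] with x h1 h2 h3
  have h4 : weakGradient m v x ≤ dist x o + c :=
    (ENNReal.ofReal_le_ofReal_iff (add_nonneg dist_nonneg hc)).1 (h2.trans (hsl x))
  calc |gamma m g v x| ≤ weakGradient m g x * weakGradient m v x := h1
    _ ≤ weakGradient m g x * (dist x o + c) := mul_le_mul_of_nonneg_left h4 h3
    _ = (dist x o + c) * weakGradient m g x := mul_comm _ _

/-- (`gc_gamma_aesm`, `gc_gamma_abs_le`, `gc_wg_le_lip`, `ev_good_grad_integrable` `k = 0`.) -/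
theorem ev_gamma_integrable (hS : Std m K N) (ha : GoodExp m o a) (h : ev_Good m o a B g) (hv : GloballyLipschitz v) :
    Integrable (gamma m g v) m := by
  have hfin := hS.finite
  obtain ⟨L, hL⟩ := hv
  have hl : gc_LipLoc v := gc_lipLoc_of_lip ⟨L, hL⟩
  refine Integrable.mono' ((ev_good_grad_integrable ha h 0).const_mul (L : ℝ)) (gc_gamma_aesm g v) ?_
  filter_upwards [gc_gamma_abs_le hS (gc_ls_of_sob h.sob) (gc_ls_of_lipLoc hfin hl), gc_wg_le_lip hfin hL,
    gc_wg_nonneg (m := m) g] with x h1 h2 h3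
  rw [Real.norm_eq_abs]
  calc |gamma m g v x| ≤ weakGradient m g x * weakGradient m v x := h1
    _ ≤ weakGradient m g x * L := mul_le_mul_of_nonneg_left h2 h3
    _ = L * (dist x o ^ 0 * weakGradient m g x) := by ring

/-! ### the perturbation -/

/-- weighted squares: `|u| ≤ |u₁| + |u₂|` a.e. gives integrability of `w u²`. -/
theorem ev_aux_weight_sq {w u u₁ u₂ : X → ℝ} (hw0 : ∀ x, 0 ≤ w x) (hwm : AEStronglyMeasurable w m)
    (hu : AEStronglyMeasurable u m) (h₁ : Integrable (fun x => w x * u₁ x ^ 2) m)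
    (h₂ : Integrable (fun x => w x * u₂ x ^ 2) m) (hle : ∀ᵐ x ∂m, |u x| ≤ |u₁ x| + |u₂ x|) :
    Integrable (fun x => w x * u x ^ 2) m := by
  refine Integrable.mono' ((h₁.const_mul 2).add (h₂.const_mul 2)) (hwm.mul (hu.pow 2)) ?_
  filter_upwards [hle] with x hx
  have h0 : 0 ≤ w x * u x ^ 2 := mul_nonneg (hw0 x) (sq_nonneg _)
  rw [Real.norm_eq_abs, abs_of_nonneg h0]
  have h1 : u x ^ 2 ≤ 2 * u₁ x ^ 2 + 2 * u₂ x ^ 2 := by
    have e0 : u x ^ 2 = |u x| ^ 2 := (sq_abs _).symm
    have e1 : u₁ x ^ 2 = |u₁ x| ^ 2 := (sq_abs _).symm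
    have e2 : u₂ x ^ 2 = |u₂ x| ^ 2 := (sq_abs _).symm
    rw [e0, e1, e2]
    nlinarith [abs_nonneg (u x), abs_nonneg (u₁ x), abs_nonneg (u₂ x),
      sq_nonneg (|u₁ x| - |u₂ x|)]
  have h2 := mul_le_mul_of_nonneg_left h1 (hw0 x)
  show w x * u x ^ 2 ≤ 2 * (w x * u₁ x ^ 2) + 2 * (w x * u₂ x ^ 2)
  linarith

theorem ev_aux_exp_aesm (m : Measure X) (o : X) (a : ℝ) :
    AEStronglyMeasurable (fun x => Real.exp (2 * a * dist x o)) m :=
  (by fun_prop : Continuous fun x : X => Real.exp (2 * a * dist x o)).aestronglyMeasurable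

/-- convex combinations of nice densities are nice. -/
theorem ev_aux_nice_convex {ρ₁ ρ₂ : X → ℝ} {B₁ B₂ : ℝ} (h₁ : NiceDens m o a B₁ ρ₁)
    (h₂ : NiceDens m o a B₂ ρ₂) (hη0 : 0 ≤ η) (hη1 : η ≤ 1) :
    NiceDens m o a (max B₁ B₂) (fun x => (1 - η) * ρ₁ x + η * ρ₂ x) := by
  have hη' : 0 ≤ 1 - η := by linarith
  have hmeas : AEStronglyMeasurable (fun x => (1 - η) * ρ₁ x + η * ρ₂ x) m :=
    (h₁.meas.const_mul _).add (h₂.meas.const_mul _)
  refine ⟨hmeas, ?_, ?_, (h₁.int.const_mul _).add (h₂.int.const_mul _), ?_, ?_⟩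
  · filter_upwards [h₁.nonneg, h₂.nonneg] with x hx1 hx2
    exact add_nonneg (mul_nonneg hη' hx1) (mul_nonneg hη0 hx2)
  · filter_upwards [h₁.le, h₂.le] with x hx1 hx2
    have a1 : (1 - η) * ρ₁ x ≤ (1 - η) * max B₁ B₂ :=
      mul_le_mul_of_nonneg_left (hx1.trans (le_max_left _ _)) hη'
    have a2 : η * ρ₂ x ≤ η * max B₁ B₂ :=
      mul_le_mul_of_nonneg_left (hx2.trans (le_max_right _ _)) hη0
    linarith
  · rw [integral_add (h₁.int.const_mul _) (h₂.int.const_mul _), integral_const_mul,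
      integral_const_mul, h₁.mass, h₂.mass]
    ring
  · refine ev_aux_weight_sq (fun x => (Real.exp_pos _).le) (ev_aux_exp_aesm m o a) hmeas
      h₁.tail h₂.tail (Eventually.of_forall fun x => ?_)
    calc |(1 - η) * ρ₁ x + η * ρ₂ x| ≤ |(1 - η) * ρ₁ x| + |η * ρ₂ x| := abs_add_le _ _
      _ = (1 - η) * |ρ₁ x| + η * |ρ₂ x| := by
          rw [abs_mul, abs_mul, abs_of_nonneg hη', abs_of_nonneg hη0]
      _ ≤ |ρ₁ x| + |ρ₂ x| := by
          nlinarith [abs_nonneg (ρ₁ x), abs_nonneg (ρ₂ x)]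

/-- convex combination of two good densities.   `|D((1-η)g + ηθ)| ≤ (1-η)|Dg| + η|Dθ|` (`gc_wg_add_le`, `gc_wg_const_mul`), `(x+y)² ≤ 2x²+2y²`;  `gc_sob_add`, `gc_sob_const_mul`. -/
theorem ev_pert_good (hS : Std m K N) (ha : GoodExp m o a) (h : ev_Good m o a B g) (hη0 : 0 ≤ η) (hη1 : η ≤ 1) :
    ev_Good m o a (max B (1 / ∫ y, Real.exp (-(3 * a) * dist y o) ∂m)) (ev_pert m o a η g) := by
  have hθ := ev_theta_good hS ha
  have hfin := hS.finite
  have hη' : 0 ≤ 1 - η := by linarith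
  have hgl := gc_ls_of_sob h.sob
  have hθl := gc_ls_of_sob hθ.sob
  refine ⟨ev_aux_nice_convex h.nice hθ.nice hη0 hη1,
    gc_sob_add hfin (gc_sob_const_mul hfin (1 - η) h.sob) (gc_sob_const_mul hfin η hθ.sob), ?_⟩
  refine ev_aux_weight_sq (fun x => (Real.exp_pos _).le) (ev_aux_exp_aesm m o a) (gc_wg_aesm _)
    h.grad hθ.grad ?_
  filter_upwards [gc_wg_add_le hfin (gc_ls_const_mul hfin (1 - η) hgl)
      (gc_ls_const_mul hfin η hθl), gc_wg_const_mul hfin (1 - η) hgl, gc_wg_const_mul hfin η hθl,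
    gc_wg_nonneg (m := m) (ev_pert m o a η g), gc_wg_nonneg (m := m) g,
    gc_wg_nonneg (m := m) (ev_theta m o a)] with x a1 a2 a3 a4 a5 a6
  rw [a2, a3, abs_of_nonneg hη', abs_of_nonneg hη0] at a1
  rw [abs_of_nonneg a4, abs_of_nonneg a5, abs_of_nonneg a6]
  have a7 : weakGradient m (ev_pert m o a η g) x ≤
      (1 - η) * weakGradient m g x + η * weakGradient m (ev_theta m o a) x := a1
  nlinarith

/-- `g_η ≥ η θ ≥ η e^{-3aR}/ϑ` a.e. on `B_R`. -/
theorem ev_pert_locPos (hfull : FullSupport m) (ha : GoodExp m o a) (h0 : ∀ᵐ x ∂m, 0 ≤ g x) (hη0 : 0 < η) (hη1 : η ≤ 1) :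
    ev_LocPos m o (ev_pert m o a η g) := by
  intro r
  have hϑ := ev_vth_pos hfull ha
  refine ⟨η * (Real.exp (-(3 * a) * r) / ∫ y, Real.exp (-(3 * a) * dist y o) ∂m),
    mul_pos hη0 (div_pos (Real.exp_pos _) hϑ), ?_⟩
  filter_upwards [h0] with x hx hxr
  have hd : dist x o ≤ r := Metric.mem_closedBall.1 hxr
  have ha0 := ha.1
  have h1 : Real.exp (-(3 * a) * r) ≤ Real.exp (-(3 * a) * dist x o) := by
    apply Real.exp_le_exp.2
    nlinarith
  have h2 : Real.exp (-(3 * a) * r) / (∫ y, Real.exp (-(3 * a) * dist y o) ∂m) ≤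
      ev_theta m o a x := div_le_div_of_nonneg_right h1 hϑ.le
  have h3 : 0 ≤ (1 - η) * g x := mul_nonneg (by linarith) hx
  have h4 := mul_le_mul_of_nonneg_left h2 hη0.le
  show _ ≤ (1 - η) * g x + η * ev_theta m o a x
  linarith

/-- `Γ(g_η,v) = (1-η)Γ(g,v) + ηΓ(θ,v)` a.e. (`gc_gamma_add_left`, `gc_gamma_const_mul_left`, `gc_ls_const_mul`), integrate (`ev_gamma_integrable`, `ev_theta_good`). -/
theorem ev_pert_gamma (hS : Std m K N) (ha : GoodExp m o a) (h : ev_Good m o a B g) (hv : GloballyLipschitz v) (η : ℝ) :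
    ∫ x, gamma m (ev_pert m o a η g) v x ∂m
      = (1 - η) * ∫ x, gamma m g v x ∂m + η * ∫ x, gamma m (ev_theta m o a) v x ∂m := by
  have hθ := ev_theta_good hS ha
  have hfin := hS.finite
  have hvl : LocalSobolev m v := gc_ls_of_lipLoc hfin (gc_lipLoc_of_lip hv)
  have hgl := gc_ls_of_sob h.sob
  have hθl := gc_ls_of_sob hθ.sob
  have e : ∫ x, gamma m (ev_pert m o a η g) v x ∂m =
      ∫ x, ((1 - η) * gamma m g v x + η * gamma m (ev_theta m o a) v x) ∂m := by
    apply integral_congr_ae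
    filter_upwards [gc_gamma_add_left hS (gc_ls_const_mul hfin (1 - η) hgl)
        (gc_ls_const_mul hfin η hθl) hvl, gc_gamma_const_mul_left hS (1 - η) hgl hvl,
      gc_gamma_const_mul_left hS η hθl hvl] with x a1 a2 a3
    have a0 : gamma m (ev_pert m o a η g) v x =
        gamma m (fun y => (1 - η) * g y + η * ev_theta m o a y) v x := rfl
    rw [a0, a1, a2, a3]
  rw [e, integral_add ((ev_gamma_integrable hS ha h hv).const_mul _)
    ((ev_gamma_integrable hS ha hθ hv).const_mul _), integral_const_mul, integral_const_mul]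

/-- `Basic.ev_ent_tendsto` with `l = 𝓝[>] 0`, bound `max B (1/ϑ)`, `D = g + θ`. -/
theorem ev_pert_ent_tendsto (hS : Std m K N) (ha : GoodExp m o a) (h : NiceDens m o a B g) :
    Tendsto (fun η : ℝ => entF m (ev_pert m o a η g)) (𝓝[>] 0) (𝓝 (entF m g)) := by
  have hθ := (ev_theta_good hS ha).nice
  have hev : ∀ᶠ η : ℝ in 𝓝[>] 0, η ∈ Ioc (0 : ℝ) 1 := Ioc_mem_nhdsGT zero_lt_one
  refine ev_ent_tendsto (B := max B (1 / ∫ y, Real.exp (-(3 * a) * dist y o) ∂m))
    (D := fun x => g x + ev_theta m o a x) ha ?_ ?_ (h.int.add hθ.int) ?_ ?_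
  · exact Eventually.of_forall fun η => (h.meas.const_mul (1 - η)).add (hθ.meas.const_mul η)
  · filter_upwards [hev] with η hη
    have hn := ev_aux_nice_convex h hθ hη.1.le hη.2
    filter_upwards [hn.nonneg, hn.le, h.nonneg, hθ.nonneg] with x b1 b2 b3 b4
    refine ⟨b1, b2, ?_⟩
    show (1 - η) * g x + η * ev_theta m o a x ≤ g x + ev_theta m o a x
    nlinarith [hη.1, hη.2]
  · have c1 := ev_nice_moment ha h 1
    have c2 := ev_nice_moment ha hθ 1
    simp only [pow_one] at c1 c2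
    refine (c1.add c2).congr (Eventually.of_forall fun x => ?_)
    show dist x o * g x + dist x o * ev_theta m o a x = dist x o * (g x + ev_theta m o a x)
    ring
  · refine Eventually.of_forall fun x => tendsto_nhdsWithin_of_tendsto_nhds ?_
    have hc : Continuous fun η : ℝ => (1 - η) * g x + η * ev_theta m o a x := by fun_prop
    have h0 := hc.tendsto 0
    simp only [sub_zero, one_mul, zero_mul, add_zero] at h0
    exact h0

/-- `∫ ζ² |g_η - g| = η ∫ ζ² |θ - g| → 0`;  `Wass.ev_W2_tendsto`  (`g_η` is nice for `0 < η ≤ 1`: as in `ev_pert_good`, only the `NiceDens` part). -/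
theorem ev_pert_W2_tendsto (hS : Std m K N) (ha : GoodExp m o a) (h : NiceDens m o a B g)
    (hσ : IsProbabilityMeasure σ) (h2 : HasSecondMoment σ) :
    Tendsto (fun η : ℝ => W2sqR (dens m (ev_pert m o a η g)) σ) (𝓝[>] 0) (𝓝 (W2sqR (dens m g) σ)) := by
  have hθ := (ev_theta_good hS ha).nice
  have hev : ∀ᶠ η : ℝ in 𝓝[>] 0, η ∈ Ioc (0 : ℝ) 1 := Ioc_mem_nhdsGT zero_lt_one
  refine ev_W2_tendsto (Bs := fun _ => max B (1 / ∫ y, Real.exp (-(3 * a) * dist y o) ∂m)) ha
    ?_ h ?_ hσ h2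
  · filter_upwards [hev] with η hη
    exact ev_aux_nice_convex h hθ hη.1.le hη.2
  · have e : ∀ η : ℝ, ∫ x, dist x o ^ 2 * |ev_pert m o a η g x - g x| ∂m =
        |η| * ∫ x, dist x o ^ 2 * |ev_theta m o a x - g x| ∂m := by
      intro η
      rw [← integral_const_mul]
      congr 1
      funext x
      have e1 : ev_pert m o a η g x - g x = η * (ev_theta m o a x - g x) := by
        unfold ev_pert
        ring
      rw [e1, abs_mul]
      ring
    simp only [e]
    refine tendsto_nhdsWithin_of_tendsto_nhds ?_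
    have hc : Continuous fun η : ℝ =>
        |η| * ∫ x, dist x o ^ 2 * |ev_theta m o a x - g x| ∂m := by fun_prop
    have := hc.tendsto 0
    simpa using this

end Claimed.Agent.R210.EV.Pert
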