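/-
Row 210 (S0432), layer EV: chain rule for the logarithm of a density which is locally bounded away from `0`
(`Need.ev_need_log`), proved from the exports of GC.      helper73.
-/
import Claimed.Agent.R210.EV.Defs
import Claimed.Agent.R210.GC.Ifc

set_option autoImplicit false

open Claims.C0366 Claims.C0366.WeakHessian
open Set Filter MeasureTheory
open scoped ENNReal NNReal Topology

namespace Claimed.Agent.R210.EV.Log

open Claimed.Agent.R210.Defs Claimed.Agent.R210.Defs2 Claimed.Agent.R210.EV.Defs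
  Claimed.Agent.R210.GC.Defs Claimed.Agent.R210.GC.WG Claimed.Agent.R210.GC.Gam

/-- `|log u - log v| ≤ |u - v| / d` for `u, v ≥ d > 0`. -/
theorem ev_log_abs_sub_le {d u v : ℝ} (hd : 0 < d) (hu : d ≤ u) (hv : d ≤ v) :
    |Real.log u - Real.log v| ≤ d⁻¹ * |u - v| := by
  have key : ∀ {u v : ℝ}, d ≤ v → v ≤ u → |Real.log u - Real.log v| ≤ d⁻¹ * |u - v| := by
    intro u v hv huv
    have hv0 : 0 < v := hd.trans_le hv
    have hu0 : 0 < u := hv0.trans_le huv
    have h1 : 0 ≤ Real.log u - Real.log v := sub_nonneg.2 (Real.log_le_log hv0 huv)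
    rw [abs_of_nonneg h1, abs_of_nonneg (sub_nonneg.2 huv), ← Real.log_div hu0.ne' hv0.ne']
    have h2 := Real.log_le_sub_one_of_pos (div_pos hu0 hv0)
    have h3 : u / v - 1 = v⁻¹ * (u - v) := by field_simp
    rw [h3] at h2
    refine h2.trans ?_
    exact mul_le_mul_of_nonneg_right (inv_anti₀ hd hv) (sub_nonneg.2 huv)
  rcases le_total v u with h | h
  · exact key hv h
  · rw [abs_sub_comm, abs_sub_comm u v]
    exact key hu h

/-- the truncated logarithm `z ↦ log (max z d / c)` is Lipschitz. -/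
theorem ev_log_trunc_lipschitz {d c : ℝ} (hd : 0 < d) (hc : 0 < c) :
    LipschitzWith (Real.toNNReal d⁻¹) (fun z : ℝ => Real.log (max z d / c)) := by
  apply LipschitzWith.of_dist_le_mul
  intro z w
  rw [Real.dist_eq, Real.dist_eq, Real.coe_toNNReal _ (inv_nonneg.2 hd.le)]
  have hz : d ≤ max z d := le_max_right _ _
  have hw : d ≤ max w d := le_max_right _ _
  rw [Real.log_div (hd.trans_le hz).ne' hc.ne', Real.log_div (hd.trans_le hw).ne' hc.ne']
  have h1 := ev_log_abs_sub_le hd hz hw
  have h2 : |max z d - max w d| ≤ |z - w| := abs_max_sub_max_le_abs z w d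
  calc |Real.log (max z d) - Real.log c - (Real.log (max w d) - Real.log c)|
      = |Real.log (max z d) - Real.log (max w d)| := by ring_nf
    _ ≤ d⁻¹ * |max z d - max w d| := h1
    _ ≤ d⁻¹ * |z - w| := mul_le_mul_of_nonneg_left h2 (inv_nonneg.2 hd.le)

/-- its derivative above the truncation level. -/
theorem ev_log_trunc_deriv {d c z : ℝ} (hd : 0 < d) (hc : 0 < c) (hz : d < z) :
    deriv (fun z : ℝ => Real.log (max z d / c)) z = z⁻¹ := by
  have hz0 : 0 < z := hd.trans hz
  have hev : (fun z : ℝ => Real.log (max z d / c)) =ᶠ[𝓝 z] fun w => Real.log (w / c) := by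
    filter_upwards [lt_mem_nhds hz] with w hw
    rw [max_eq_left hw.le]
  rw [hev.deriv_eq]
  have h1 : HasDerivAt (fun w : ℝ => w / c) (1 / c) z := (hasDerivAt_id z).div_const c
  have h2 := h1.log (div_pos hz0 hc).ne'
  rw [h2.deriv]
  field_simp

variable {X : Type*} [MetricSpace X] [MeasurableSpace X] [BorelSpace X]
  [CompleteSpace X] [TopologicalSpace.SeparableSpace X] [ProperSpace X]
variable {m : Measure X} {K N : ℝ}

/-- chain rule for the logarithm of a density which is locally bounded away from `0`. -/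
theorem ev_log_chain (hS : Std m K N) {ρ : X → ℝ} {o : X} {c : ℝ} (hρ : LocalSobolev m ρ)
    (hpos : ev_LocPos m o ρ) (hc : 0 < c) :
    LocalSobolev m (fun x => Real.log (ρ x / c)) ∧ ∀ h : X → ℝ, LocalSobolev m h →
      ∀ᵐ x ∂m, gamma m (fun x => Real.log (ρ x / c)) h x = gamma m ρ h x / ρ x := by
  have hfin := hS.finite
  choose cs hcs0 hcs using fun n : ℕ => hpos (n : ℝ)
  set φ : ℕ → ℝ → ℝ := fun n z => Real.log (max z (cs n / 2) / c) with hφ
  have hd : ∀ n, 0 < cs n / 2 := fun n => half_pos (hcs0 n)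
  have hgL : ∀ n, LocalSobolev m (fun x => φ n (ρ x)) := fun n =>
    gc_ls_comp_lip hfin (ev_log_trunc_lipschitz (hd n) hc) hρ
  have heq : ∀ n : ℕ, ∀ᵐ x ∂m, x ∈ Metric.closedBall o (n : ℝ) →
      cs n / 2 < ρ x ∧ Real.log (ρ x / c) = φ n (ρ x) := by
    intro n
    filter_upwards [hcs n] with x hx hxm
    have h1 : cs n / 2 < ρ x := (half_lt_self (hcs0 n)).trans_le (hx hxm)
    exact ⟨h1, by simp only [hφ, max_eq_left h1.le]⟩
  have hfL : LocalSobolev m (fun x => Real.log (ρ x / c)) := by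
    apply gc_ls_of_local hfin
    intro o' R'
    obtain ⟨n, hn⟩ := exists_nat_ge (dist o' o + R')
    refine ⟨fun x => φ n (ρ x), hgL n, ?_⟩
    filter_upwards [heq n] with x hx hxm
    refine (hx ?_).2
    rw [Metric.mem_closedBall]
    have h1 : dist x o' < R' := Metric.mem_ball.1 hxm
    have h2 := dist_triangle x o' o
    linarith
  refine ⟨hfL, fun h hh => ?_⟩
  have hall : ∀ n : ℕ, ∀ᵐ x ∂m, x ∈ Metric.closedBall o (n : ℝ) →
      gamma m (fun x => Real.log (ρ x / c)) h x = gamma m ρ h x / ρ x := by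
    intro n
    filter_upwards [heq n, gc_gamma_eq_on_left hS hfL (hgL n) hh,
      gc_gamma_comp_lip_left hS (ev_log_trunc_lipschitz (hd n) hc) hρ hh] with x h1 h2 h3 hxm
    obtain ⟨h4, h5⟩ := h1 hxm
    rw [h2 h5, h3, ev_log_trunc_deriv (hd n) hc h4]
    ring
  filter_upwards [ae_all_iff.2 hall] with x hx
  obtain ⟨n, hn⟩ := exists_nat_ge (dist x o)
  exact hx n (Metric.mem_closedBall.2 hn)

end Claimed.Agent.R210.EV.Log
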