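/-
Row 210 (S0432), layer EV: WHAT WE NEED FROM THE OTHER LAYERS (OT, FO, GCB, GCD/HF, HS, RS, CD).      Architect helper948.
Every statement is proved from the real export of the upstream layer (owner of this file: helper948).
-/
import Claimed.Agent.R210.EV.Log
import Claimed.Agent.R210.GM.Ifc
import Claimed.Agent.R210.HS.Ifc
import Claimed.Agent.R210.OT.Ifc
import Claimed.Agent.R210.FO.Ifc
import Claimed.Agent.R210.GCD.Ifc
import Claimed.Agent.R210.CD.Ifc

set_option autoImplicit false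
set_option linter.unusedSectionVars false
set_option linter.unusedVariables false

open Claims.C0366 Claims.C0366.WeakHessian
open Set Filter MeasureTheory
open scoped ENNReal NNReal Topology

namespace Claimed.Agent.R210.EV.Need

open Claimed.Agent.R210.Defs Claimed.Agent.R210.Defs2 Claimed.Agent.R210.HS.Defs Claimed.Agent.R210.GM.Defs
  Claimed.Agent.R210.EV.Defs Claimed.Agent.R210.OT.Ifc Claimed.Agent.R210.GC.Defs Claimed.Agent.R210.GC.WG
  Claimed.Agent.R210.GC.Gam Claimed.Agent.R210.GCD.Ifc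

variable {X : Type*} [MetricSpace X] [MeasurableSpace X] [BorelSpace X]
  [CompleteSpace X] [TopologicalSpace.SeparableSpace X] [ProperSpace X]
variable {m μ ν σ μ₀ μ₁ : Measure X} {K N : ℝ}

/-! ### OT (helper578) -/

/-- OT1. -/
theorem ev_need_W2_lt_top (hμ : IsProbabilityMeasure μ) (hν : IsProbabilityMeasure ν)
    (h2μ : HasSecondMoment μ) (h2ν : HasSecondMoment ν) : W2sq μ ν < ∞ :=
  ot_W2sq_lt_top h2μ h2ν

/-- OT1. -/
theorem ev_need_W2_comm (μ ν : Measure X) : W2sq μ ν = W2sq ν μ :=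
  ot_W2sq_comm μ ν

/-- OT2. -/
theorem ev_need_W2_triangle (hμ : IsProbabilityMeasure μ) (hν : IsProbabilityMeasure ν) (hσ : IsProbabilityMeasure σ)
    (h2μ : HasSecondMoment μ) (h2ν : HasSecondMoment ν) (h2σ : HasSecondMoment σ) :
    Real.sqrt (W2sqR μ σ) ≤ Real.sqrt (W2sqR μ ν) + Real.sqrt (W2sqR ν σ) :=
  ot_triangle_moment hμ hν hσ h2μ h2ν h2σ

/-- OT4, with the consequences of the structure `a = min(T, inf_{y ∈ S₁} (d(·,y)²/2 - ψ y))`, `sup ψ = 0`, `S₁ ⊆ closedBall o Rν`. -/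
theorem ev_need_OT4 (hμ : IsProbabilityMeasure μ) (hν : IsProbabilityMeasure ν) {o : X} {R Rν : ℝ}
    (hμc : μ (Metric.closedBall o R)ᶜ = 0) (hνc : ν (Metric.closedBall o Rν)ᶜ = 0) :
    ∃ (a b : X → ℝ) (T : ℝ), KPair μ ν a b ∧ (∀ x, 0 ≤ a x) ∧ (∀ x, a x ≤ (dist x o + Rν) ^ 2 / 2) ∧
      (∀ x, localSlope a x ≤ ENNReal.ofReal (dist x o + Rν)) ∧ HasCompactSupport (fun x => a x - T) :=
  ot_kpair_ball hμ hν hμc hνc

/-- OT5, weak duality. -/
theorem ev_need_dual_le (hμ : IsProbabilityMeasure μ) (hν : IsProbabilityMeasure ν)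
    (h2μ : HasSecondMoment μ) (h2ν : HasSecondMoment ν) {a b : X → ℝ} (ha : Continuous a) (hb : Continuous b)
    (hab : BoundedFunction a) (hbb : BoundedFunction b) (h : ∀ x y, a x + b y ≤ dist x y ^ 2 / 2) :
    ∫ x, a x ∂μ + ∫ y, b y ∂ν ≤ W2sqR μ ν / 2 :=
  ot_weak_duality' hμ hν h2μ h2ν ha hb hab hbb h

/-- OT5, equality for a Kantorovich pair. -/
theorem ev_need_dual_eq (hμ : IsProbabilityMeasure μ) (hν : IsProbabilityMeasure ν)
    (h2μ : HasSecondMoment μ) (h2ν : HasSecondMoment ν) {a b : X → ℝ} (h : KPair μ ν a b) :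
    ∫ x, a x ∂μ + ∫ y, b y ∂ν = W2sqR μ ν / 2 :=
  ot_kpair_eq h

/-- OT6, lower semicontinuity under weak convergence. -/
theorem ev_need_W2_lsc {μs νs : ℕ → Measure X} (hμs : ∀ n, IsProbabilityMeasure (μs n))
    (hνs : ∀ n, IsProbabilityMeasure (νs n)) (hμ : IsProbabilityMeasure μ) (hν : IsProbabilityMeasure ν)
    (h1 : ∀ φ : X → ℝ, Continuous φ → BoundedFunction φ →
      Tendsto (fun n => ∫ x, φ x ∂(μs n)) atTop (𝓝 (∫ x, φ x ∂μ)))
    (h2 : ∀ φ : X → ℝ, Continuous φ → BoundedFunction φ →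
      Tendsto (fun n => ∫ x, φ x ∂(νs n)) atTop (𝓝 (∫ x, φ x ∂ν))) :
    W2sq μ ν ≤ liminf (fun n => W2sq (μs n) (νs n)) atTop :=
  ot_lsc' hμs hνs hμ hν h1 h2

/-! ### FO (helper920) -/

/-- FO3 at `t = 0`, along the times `2^{-n}`. -/
theorem ev_need_FO3 (hS : Std m K N) {M₀ M₁ C : ℝ≥0} {o : X} {R : ℝ} (h0 : BddDens m μ₀ M₀ o R)
    (h1 : BddDens m μ₁ M₁ o R) {π : Measure (Curve X)} (hπ : GeoPlan m μ₀ μ₁ π C) {a b : X → ℝ}
    (hab : KPair μ₀ μ₁ a b) {g : X → ℝ} (hg : LocalSobolev m g) :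
    Tendsto (fun n : ℕ => (2 : ℝ) ^ n * (∫ x, g x ∂(interpolation π (gm_half n)) - ∫ x, g x ∂μ₀)) atTop
      (𝓝 (-∫ x, gamma m g a x ∂μ₀)) := by
  have hd := hasDerivWithinAt_iff_tendsto_slope.1 (Claimed.Agent.R210.FO.Ifc.fo_deriv_zero hS hπ h0 h1 hab hg)
  rw [Ici_sdiff_left] at hd
  have ht : Tendsto (fun n : ℕ => ((1 / 2 : ℝ)) ^ n) atTop (𝓝[>] 0) :=
    tendsto_nhdsWithin_iff.2 ⟨tendsto_pow_atTop_nhds_zero_of_lt_one (by norm_num) (by norm_num),
      Eventually.of_forall fun n => by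
        have : (0 : ℝ) < (1 / 2 : ℝ) ^ n := by positivity
        exact this⟩
  refine (hd.comp ht).congr fun n => ?_
  have e1 : Claimed.Agent.R210.FO.Defs.fo_mu π ((1 / 2 : ℝ) ^ n) = interpolation π (gm_half n) :=
    Claimed.Agent.R210.FO.Ifc.fo_mu_coe π (gm_half n)
  simp only [Function.comp, slope_def_field, sub_zero, e1, Claimed.Agent.R210.FO.Ifc.fo_mu_zero hπ]
  rw [one_div, inv_pow, div_inv_eq_mul, mul_comm]

/-! ### GCB (helper469) -/

theorem ev_need_lipC_sobolev (hS : Std m K N) {f : X → ℝ} (hf : LipC f) : Sobolev m f :=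
  gc_sob_of_lipC hS.finite hf

theorem ev_need_lip_local (hS : Std m K N) {f : X → ℝ} (hf : GloballyLipschitz f) :
    LocalSobolev m f ∧ ∀ᵐ x ∂m, weakGradient m f x ≤ (localSlope f x).toReal := by
  refine ⟨gc_ls_of_lipLoc hS.finite (gc_lipLoc_of_lip hf), ?_⟩
  obtain ⟨L, hL⟩ := hf
  filter_upwards [gc_wg_le_slope hS.finite (gc_lipLoc_of_lip ⟨L, hL⟩), gc_wg_nonneg (m := m) f] with x hx h0
  by_cases htop : localSlope f x = ∞
  · exfalso
    have hle : localSlope f x ≤ (L : ℝ≥0∞) := by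
      unfold localSlope
      refine Filter.limsup_le_of_le (by isBoundedDefault) ?_
      filter_upwards [self_mem_nhdsWithin] with y hy
      have hd : 0 < dist y x := dist_pos.2 hy
      rw [← ENNReal.ofReal_coe_nnreal]
      refine ENNReal.ofReal_le_ofReal ?_
      rw [div_le_iff₀ hd, ← Real.dist_eq]
      exact hL.dist_le_mul y x
    rw [htop] at hle
    exact absurd hle (by simp)
  · exact (ENNReal.ofReal_le_iff_le_toReal htop).1 hx

theorem ev_need_wg_meas (hS : Std m K N) {f : X → ℝ} (hf : LocalSobolev m f) :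
    AEStronglyMeasurable (weakGradient m f) m ∧ ∀ᵐ x ∂m, 0 ≤ weakGradient m f x :=
  ⟨gc_wg_aesm f, gc_wg_nonneg f⟩

theorem ev_need_gamma_meas (hS : Std m K N) {f g : X → ℝ} (hf : LocalSobolev m f) (hg : LocalSobolev m g) :
    AEStronglyMeasurable (gamma m f g) m :=
  gc_gamma_aesm f g

theorem ev_need_gamma_le (hS : Std m K N) {f g : X → ℝ} (hf : LocalSobolev m f) (hg : LocalSobolev m g) :
    ∀ᵐ x ∂m, |gamma m f g x| ≤ weakGradient m f x * weakGradient m g x :=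
  gc_gamma_abs_le hS hf hg

/-- linear combinations: class and gradient. -/
theorem ev_need_lin (hS : Std m K N) {f₁ f₂ : X → ℝ} (h1 : Sobolev m f₁) (h2 : Sobolev m f₂) (c₁ c₂ : ℝ) :
    Sobolev m (fun x => c₁ * f₁ x + c₂ * f₂ x) ∧
      ∀ᵐ x ∂m, weakGradient m (fun x => c₁ * f₁ x + c₂ * f₂ x) x
        ≤ |c₁| * weakGradient m f₁ x + |c₂| * weakGradient m f₂ x := by
  have hfin := hS.finite
  refine ⟨gc_sob_add hfin (gc_sob_const_mul hfin c₁ h1) (gc_sob_const_mul hfin c₂ h2), ?_⟩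
  filter_upwards [gc_wg_add_le hfin (gc_ls_const_mul hfin c₁ h1.2.1) (gc_ls_const_mul hfin c₂ h2.2.1),
    gc_wg_const_mul hfin c₁ h1.2.1, gc_wg_const_mul hfin c₂ h2.2.1] with x hx e1 e2
  rw [← e1, ← e2]
  exact hx

/-- linearity of `gamma` in the first slot. -/
theorem ev_need_gamma_lin (hS : Std m K N) {f₁ f₂ h : X → ℝ} (h1 : LocalSobolev m f₁) (h2 : LocalSobolev m f₂)
    (hh : LocalSobolev m h) (c₁ c₂ : ℝ) :
    ∀ᵐ x ∂m, gamma m (fun x => c₁ * f₁ x + c₂ * f₂ x) h x = c₁ * gamma m f₁ h x + c₂ * gamma m f₂ h x := by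
  have hfin := hS.finite
  filter_upwards [gc_gamma_add_left hS (gc_ls_const_mul hfin c₁ h1) (gc_ls_const_mul hfin c₂ h2) hh,
    gc_gamma_const_mul_left hS c₁ h1 hh, gc_gamma_const_mul_left hS c₂ h2 hh] with x hx e1 e2
  rw [← e1, ← e2]
  exact hx

/-- constants do not matter in the second slot. -/
theorem ev_need_gamma_sub_const (hS : Std m K N) {f h : X → ℝ} (hf : LocalSobolev m f) (hh : LocalSobolev m h) (T : ℝ) :
    ∀ᵐ x ∂m, gamma m f (fun y => h y - T) x = gamma m f h x := by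
  simpa only [sub_eq_add_neg] using gc_gamma_add_const_right hS (-T) hf hh

/-- chain rule for the logarithm of a density which is locally bounded away from `0` and `∞`. -/
theorem ev_need_log (hS : Std m K N) {ρ : X → ℝ} {o : X} {B c : ℝ} (hρ : Sobolev m ρ) (hB : ∀ᵐ x ∂m, ρ x ≤ B)
    (hpos : ev_LocPos m o ρ) (hc : 0 < c) :
    LocalSobolev m (fun x => Real.log (ρ x / c)) ∧ ∀ h : X → ℝ, LocalSobolev m h →
      ∀ᵐ x ∂m, gamma m (fun x => Real.log (ρ x / c)) h x = gamma m ρ h x / ρ x :=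
  Log.ev_log_chain hS hρ.2.1 hpos hc

/-! ### GCD / HF (helper250, helper897) -/

/-- GC-D + HF1 + HF2 + HF3 for one resolvent step. -/
theorem ev_need_res (hS : Std m K N) {o : X} {a B δ : ℝ} {f : X → ℝ} (ha : GoodExp m o a) (hf : NiceDens m o a B f)
    (hδ : 0 < δ) (hδa : 4 * δ * a ^ 2 ≤ 1) :
    NiceDens m o a B (resF m δ f) ∧
      ev_tail m o a (resF m δ f) ≤ Real.exp (8 * a ^ 2 * δ) * ev_tail m o a f ∧
      IsLaplacian m (resF m δ f) (fun x => (resF m δ f x - f x) / δ) ∧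
      Integrable (fun x => Real.exp (2 * a * dist x o) * weakGradient m (resF m δ f) x ^ 2) m :=
  ⟨gcd_resF_niceDens hS o ha hδ hδa hf, (gcd_resF_weight hS o ha.1.le hδ hδa (gcd_niceDens_memLp hf) hf.tail).2,
    gcd_resF_spec hS hδ (gcd_niceDens_memLp hf),
    (gcd_resF_weight_grad hS o ha.1.le hδ hδa (gcd_niceDens_memLp hf) hf.tail).1⟩

/-! ### HS (helper751), RS (helper875), CD (helper269) -/

/-- HS3: the limit in the definition of `flow` exists. -/
theorem ev_need_flow {H : Type*} [NormedAddCommGroup H] [InnerProductSpace ℝ H] [CompleteSpace H] {Q : H → ℝ≥0∞}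
    (hQ : QForm Q) {t : ℝ} (ht : 0 < t) (f : H) :
    Tendsto (fun n : ℕ => (prox Q (t / (n + 1)))^[n + 1] f) atTop (𝓝 (flow Q t f)) := by
  exact Claimed.Agent.R210.HS.Ifc.hs_flow_tendsto hQ ht f

/-- RS6. -/
theorem ev_need_qform (hS : Std m K N) : QForm (ChL2 m) :=
  gcd_qform hS

/-- CD2 (volume growth). -/
theorem ev_need_goodExp (hS : Std m K N) (o : X) : ∃ a : ℝ, GoodExp m o a := by
  obtain ⟨a₀, -, h⟩ := Claimed.Agent.R210.CD.Ifc.cd_goodExp hS
  exact ⟨a₀ + 1, h (a₀ + 1) (by linarith) o⟩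

end Claimed.Agent.R210.EV.Need
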