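/-
Row 210 (S0432), layer EV, block EV1 (static inequality): THE LEAVES.      Sub-architect helper73.
Notation: `B_r = closedBall o r`, `z = ev_mass m o ρ R = ∫_{B_R} ρ`, `ev_trunc m o ρ R = 1_{B_R} ρ / z`, `g = log (ρ / z)`.
Every `sorry` is an independent leaf; earlier statements of this file and of EV/Basic.lean, EV/Need.lean may be used as black boxes.
Paper proof: `git show origin/helper928:docs/R210_partZ.md` (section "Layer EV", EV1).
-/
import Claimed.Agent.R210.EV.Need
import Claimed.Agent.R210.EV.Basic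

set_option autoImplicit false

open Claims.C0366 Claims.C0366.WeakHessian
open Set Filter MeasureTheory
open scoped ENNReal NNReal Topology

namespace Claimed.Agent.R210.EV.StaticA

open Claimed.Agent.R210.Defs Claimed.Agent.R210.Defs2 Claimed.Agent.R210.EV.Defs Claimed.Agent.R210.EV.Basic
  Claimed.Agent.R210.GM.Defs

variable {X : Type*} [MetricSpace X] [MeasurableSpace X] [BorelSpace X]
variable {m μ μ₀ ν : Measure X} {K N B R R₁ p D : ℝ} {o : X} {ρ r a : X → ℝ} {C : ℝ≥0}

/-- L1.  (`ae_all_iff` over `n : ℕ`, radius `n`; every `x` lies in `closedBall o n` for `n ≥ dist x o`: `exists_nat_ge`.) -/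
theorem ev_st_pos_ae (hpos : ev_LocPos m o ρ) : ∀ᵐ x ∂m, 0 < ρ x := by
  have h : ∀ n : ℕ, ∀ᵐ x ∂m, x ∈ Metric.closedBall o (n : ℝ) → 0 < ρ x := by
    intro n
    obtain ⟨c, hc, hae⟩ := hpos n
    filter_upwards [hae] with x hx hxm
    exact hc.trans_le (hx hxm)
  filter_upwards [ae_all_iff.2 h] with x hx
  obtain ⟨n, hn⟩ := exists_nat_ge (dist x o)
  exact hx n (Metric.mem_closedBall.2 hn)

/-- L2.  `ρ ≥ c > 0` a.e. on `B_R`, `0 < m B_R < ∞` (`hfull` applied to `Metric.ball o R`, `hfin`), `ρ` integrable on `B_R`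
(`MemLp` with exponent `2` on a set of finite measure). -/
theorem ev_st_mass_pos (hfull : FullSupport m) (hfin : FiniteOnBoundedSets m) (hρ2 : MemLp ρ 2 m)
    (hpos : ev_LocPos m o ρ) (hR : 0 < R) : 0 < ev_mass m o ρ R := by
  obtain ⟨c, hc, hcρ⟩ := hpos R
  have hfinS : m (Metric.closedBall o R) < ∞ := hfin _ Metric.isBounded_closedBall
  have hposS : 0 < m (Metric.closedBall o R) :=
    lt_of_lt_of_le (hfull _ Metric.isOpen_ball ⟨o, Metric.mem_ball_self hR⟩) (measure_mono Metric.ball_subset_closedBall)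
  have : Fact (m (Metric.closedBall o R) < ∞) := ⟨hfinS⟩
  have hint : Integrable ρ (m.restrict (Metric.closedBall o R)) := (hρ2.restrict _).integrable one_le_two
  have hle : ∫ _x in Metric.closedBall o R, c ∂m ≤ ∫ x in Metric.closedBall o R, ρ x ∂m :=
    integral_mono_ae (integrable_const c) hint ((ae_restrict_iff' measurableSet_closedBall).2 hcρ)
  rw [setIntegral_const, smul_eq_mul] at hle
  have hreal : 0 < m.real (Metric.closedBall o R) := ENNReal.toReal_pos hposS.ne' hfinS.ne
  unfold ev_mass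
  exact lt_of_lt_of_le (mul_pos hreal hc) hle

/-- L3.  The truncation is a bounded probability density with bounded support. -/
theorem ev_st_trunc_BS (hfin : FiniteOnBoundedSets m) (hρ2 : MemLp ρ 2 m) (hρ0 : ∀ᵐ x ∂m, 0 ≤ ρ x)
    (hρB : ∀ᵐ x ∂m, ρ x ≤ B) (hz : 0 < ev_mass m o ρ R) :
    ev_BS m o R (B / ev_mass m o ρ R) (ev_trunc m o ρ R) := by
  have hmeas : AEStronglyMeasurable ((Metric.closedBall o R).indicator ρ) m :=
    hρ2.1.indicator measurableSet_closedBall
  have hmeas' : AEStronglyMeasurable (ev_trunc m o ρ R) m := by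
    have h1 := hmeas.mul_const (ev_mass m o ρ R)⁻¹
    refine h1.congr (Eventually.of_forall fun x => ?_)
    simp only [ev_trunc, div_eq_mul_inv]
  refine ⟨hmeas', ?_, ?_, ?_, ?_⟩
  · filter_upwards [hρ0] with x hx
    refine div_nonneg ?_ hz.le
    by_cases hxS : x ∈ Metric.closedBall o R
    · rw [Set.indicator_of_mem hxS]
      exact hx
    · rw [Set.indicator_of_notMem hxS]
  · filter_upwards [hρ0, hρB] with x hx0 hxB
    refine div_le_div_of_nonneg_right ?_ hz.le
    exact Set.indicator_le' (fun _ _ => hxB) (fun _ _ => hx0.trans hxB) x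
  · refine Eventually.of_forall fun x hx => ?_
    unfold ev_trunc
    rw [Set.indicator_of_notMem hx, zero_div]
  · unfold ev_trunc
    rw [integral_div, integral_indicator measurableSet_closedBall]
    exact div_self hz.ne'

/-- L4.  The time-`t` marginal of a geodesic plan between measures concentrated on `B_R` is concentrated on `B_{R + 2 R t}`:
for `π`-a.e. `γ`: `γ` is a geodesic, `γ 0 ∈ B_R`, `γ 1 ∈ B_R` (marginals of `endpointCoupling π`, `hπ.opt.1`), so
`dist (γ t) o ≤ dist (γ t) (γ 0) + R = t * dist (γ 0) (γ 1) + R ≤ t * (2 R) + R`.  Evaluation `γ ↦ γ t` is continuous, hence measurable. -/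
theorem ev_st_interp [TopologicalSpace.SeparableSpace X] {π : Measure (Curve X)} (hπ : GeoPlan m μ₀ ν π C)
    (h0 : μ₀ (Metric.closedBall o R)ᶜ = 0)
    (h1 : ν (Metric.closedBall o R)ᶜ = 0) (t : Time) :
    BddDens m (interpolation π t) C o (R + (t : ℝ) * (2 * R)) := by
  have := hπ.prob
  have hev : ∀ s : Time, Measurable (fun γ : Curve X => γ s) := fun s =>
    (continuous_eval_const s).measurable
  have hpair : Measurable (fun γ : Curve X => (γ timeZero, γ timeOne)) :=
    (hev timeZero).prodMk (hev timeOne)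
  have hm0 : Measure.map (fun γ : Curve X => γ timeZero) π = μ₀ := by
    have h := hπ.opt.1.1
    rw [endpointCoupling, Measure.map_map measurable_fst hpair] at h
    exact h
  have hm1 : Measure.map (fun γ : Curve X => γ timeOne) π = ν := by
    have h := hπ.opt.1.2
    rw [endpointCoupling, Measure.map_map measurable_snd hpair] at h
    exact h
  have hmeas : ∀ r : ℝ, MeasurableSet (Metric.closedBall o r)ᶜ := fun r =>
    Metric.isClosed_closedBall.measurableSet.compl
  have ha0 : ∀ᵐ γ ∂π, γ timeZero ∈ Metric.closedBall o R := by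
    rw [← hm0, Measure.map_apply (hev timeZero) (hmeas R)] at h0
    rw [ae_iff]
    exact h0
  have ha1 : ∀ᵐ γ ∂π, γ timeOne ∈ Metric.closedBall o R := by
    rw [← hm1, Measure.map_apply (hev timeOne) (hmeas R)] at h1
    rw [ae_iff]
    exact h1
  refine ⟨?_, hπ.comp t, ?_⟩
  · exact Measure.isProbabilityMeasure_map (hev t).aemeasurable
  · rw [interpolation, Measure.map_apply (hev t) (hmeas _)]
    have hae : ∀ᵐ γ ∂π, γ t ∈ Metric.closedBall o (R + (t : ℝ) * (2 * R)) := by
      filter_upwards [hπ.geo, ha0, ha1] with γ hg k0 k1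
      rw [Metric.mem_closedBall] at k0 k1 ⊢
      have e1 : dist (γ t) (γ timeZero) = (t : ℝ) * dist (γ timeZero) (γ timeOne) := by
        rw [hg t timeZero]
        have : ((timeZero : Time) : ℝ) = 0 := rfl
        rw [this, sub_zero, abs_of_nonneg t.2.1]
      have e2 : dist (γ timeZero) (γ timeOne) ≤ 2 * R := by
        have := dist_triangle_right (γ timeZero) (γ timeOne) o
        linarith
      have e3 : (t : ℝ) * dist (γ timeZero) (γ timeOne) ≤ (t : ℝ) * (2 * R) :=
        mul_le_mul_of_nonneg_left e2 t.2.1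
      have e4 := dist_triangle (γ t) (γ timeZero) o
      linarith
    rw [ae_iff] at hae
    exact hae

/-- L5.  `log (b / r) ≤ b / r - 1` (`Real.log_le_sub_one_of_pos`); `r = 0` is trivial. -/
theorem ev_st_conv {r b : ℝ} (hr : 0 ≤ r) (hb : 0 < b) : r * Real.log b + r - b ≤ r * Real.log r := by
  rcases hr.eq_or_lt with h0 | h0
  · subst h0
    simp
    exact hb.le
  · have h1 := Real.log_le_sub_one_of_pos (div_pos hb h0)
    rw [Real.log_div hb.ne' h0.ne'] at h1
    have h2 := mul_le_mul_of_nonneg_left h1 h0.le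
    have h3 : r * (b / r - 1) = b - r := by field_simp
    rw [h3] at h2
    nlinarith

/-- L6a.  The density of a `BddDens` measure.  (`Measure.withDensity_rnDeriv_eq` as `μ ≪ m`; `rnDeriv ≤ C` a.e. from `μ ≤ C • m`;
`SigmaFinite m`: `CD.Ent.Base.cd_ent_sigmaFinite`; `rnDeriv = 0` a.e. off the ball since `∫⁻_{ballᶜ} rnDeriv = μ ballᶜ = 0`.) -/
theorem ev_st_rho (hfin : FiniteOnBoundedSets m) (h : BddDens m μ C o R) :
    ev_BS m o R C (rho m μ) ∧ dens m (rho m μ) = μ := by
  haveI : SigmaFinite m := Claimed.Agent.R210.CD.Ent.Base.cd_ent_sigmaFinite hfin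
  haveI := h.prob
  refine ⟨⟨Claimed.Agent.R210.CD.Ent.Lhs.cd_ent_measurable_rho.aestronglyMeasurable,
    Eventually.of_forall fun x => Claimed.Agent.R210.CD.Ent.Lhs.cd_ent_rho_nonneg x,
    Claimed.Agent.R210.CD.Ent.Dens.cd_ent_rho_le h, Claimed.Agent.R210.CD.Ent.Dens.cd_ent_rho_zero h, ?_⟩,
    Claimed.Agent.R210.GM.UtilB.gm_dens_rho h.le⟩
  rw [Claimed.Agent.R210.CD.Ent.Lhs.cd_ent_integral_rho,
    Measure.singularPart_eq_zero_of_ac (Claimed.Agent.R210.CD.Ent.Dens.cd_ent_ac h)]
  simp

/-- a function which is a.e. bounded on a ball and vanishes a.e. off the ball is integrable -/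
theorem ev_st_integrable_of_bdd (hfin : FiniteOnBoundedSets m) {f : X → ℝ} {M : ℝ} (hf : AEStronglyMeasurable f m)
    (hb : ∀ᵐ x ∂m, x ∈ Metric.closedBall o R → |f x| ≤ M)
    (h0 : ∀ᵐ x ∂m, x ∉ Metric.closedBall o R → f x = 0) : Integrable f m := by
  have hg : Integrable ((Metric.closedBall o R).indicator (fun _ : X => M)) m := by
    rw [integrable_indicator_iff Metric.isClosed_closedBall.measurableSet]
    exact integrableOn_const (hfin _ Metric.isBounded_closedBall).ne
  refine hg.mono' hf ?_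
  filter_upwards [hb, h0] with x h1 h2
  by_cases hx : x ∈ Metric.closedBall o R
  · rw [indicator_of_mem hx, Real.norm_eq_abs]
    exact h1 hx
  · rw [indicator_of_notMem hx, h2 hx, norm_zero]

/-- `z log z` of a bounded density with bounded support is integrable -/
theorem ev_st_ent_integrable (hfin : FiniteOnBoundedSets m) {C' : ℝ} (hr : ev_BS m o R C' r) :
    Integrable (fun x => r x * Real.log (r x)) m := by
  obtain ⟨M, hM⟩ := (isCompact_Icc (a := (0 : ℝ)) (b := C')).exists_bound_of_continuousOn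
    Real.continuous_mul_log.continuousOn
  refine ev_st_integrable_of_bdd (o := o) (R := R) (M := M) hfin ?_ ?_ ?_
  · exact Real.continuous_mul_log.comp_aestronglyMeasurable hr.meas
  · filter_upwards [hr.nonneg, hr.le] with x h1 h2 _
    exact hM (r x) ⟨h1, h2⟩
  · filter_upwards [hr.supp] with x h1 hx
    rw [h1 hx, zero_mul]

/-- L6.  **Convexity of `z log z`, integrated.**   `r` a bounded probability density living on `B_{R₁}`, `R ≤ R₁`, `b := ρ / z`, `r₀ := ev_trunc m o ρ R`.
A.e.:  on `B_R` (`r₀ = b`): `r log r - r₀ log r₀ ≥ (log b)(r - r₀) + (r - r₀)` (L5);   on `B_{R₁} \ B_R` (`r₀ = 0`): `r log r ≥ (log b) r + r - b` (L5);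
off `B_{R₁}`: `r = r₀ = 0`.   Integrate: `∫ r = ∫ r₀ = 1`, `∫_{B_{R₁} \ B_R} b = (ev_mass R₁ - ev_mass R)/z`.
All functions are bounded a.e. (`c ≤ ρ ≤ B` a.e. on `B_{R₁}` by `hpos`) and vanish off `B_{R₁}`, which has finite measure. -/
theorem ev_st_ent_convex (hfin : FiniteOnBoundedSets m) (hρ2 : MemLp ρ 2 m) (hρB : ∀ᵐ x ∂m, ρ x ≤ B)
    (hpos : ev_LocPos m o ρ) (hz : 0 < ev_mass m o ρ R) (hR₁ : R ≤ R₁) {C' : ℝ} (hr : ev_BS m o R₁ C' r) :
    (∫ x, Real.log (ρ x / ev_mass m o ρ R) * r x ∂m - ∫ x, Real.log (ρ x / ev_mass m o ρ R) * ev_trunc m o ρ R x ∂m)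
        - (ev_mass m o ρ R₁ - ev_mass m o ρ R) / ev_mass m o ρ R
      ≤ entF m r - entF m (ev_trunc m o ρ R) := by
  set z := ev_mass m o ρ R with hzdef
  set r₀ := ev_trunc m o ρ R with hr₀def
  have hρpos : ∀ᵐ x ∂m, 0 < ρ x := ev_st_pos_ae hpos
  have hρm : AEStronglyMeasurable ρ m := hρ2.aestronglyMeasurable
  have hr₀ : ev_BS m o R (B / z) r₀ :=
    ev_st_trunc_BS hfin hρ2 (hρpos.mono fun _ h => h.le) hρB hz
  have hsub : Metric.closedBall o R ⊆ Metric.closedBall o R₁ := Metric.closedBall_subset_closedBall hR₁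
  have hr₀supp : ∀ᵐ x ∂m, x ∉ Metric.closedBall o R₁ → r₀ x = 0 :=
    hr₀.supp.mono fun x h hx => h fun hx' => hx (hsub hx')
  obtain ⟨c, hc, hcρ⟩ := hpos R₁
  -- bound of the logarithm on the big ball
  set Lm := max |Real.log (c / z)| |Real.log (B / z)| with hLm
  have hlogm : AEStronglyMeasurable (fun x => Real.log (ρ x / z)) m :=
    (Real.measurable_log.comp_aemeasurable (hρm.aemeasurable.div_const z)).aestronglyMeasurable
  have hlogb : ∀ᵐ x ∂m, x ∈ Metric.closedBall o R₁ → |Real.log (ρ x / z)| ≤ Lm := by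
    filter_upwards [hcρ, hρB] with x h1 h2 hx
    have h3 : c / z ≤ ρ x / z := div_le_div_of_nonneg_right (h1 hx) hz.le
    have h4 : ρ x / z ≤ B / z := div_le_div_of_nonneg_right h2 hz.le
    have h5 : 0 < c / z := div_pos hc hz
    exact abs_le_max_abs_abs (Real.log_le_log h5 h3) (Real.log_le_log (h5.trans_le h3) h4)
  -- integrability of the pieces
  have hLm0 : 0 ≤ Lm := le_max_of_le_left (abs_nonneg _)
  have i1 : Integrable (fun x => Real.log (ρ x / z) * r x) m := by
    refine ev_st_integrable_of_bdd (o := o) (R := R₁) (M := Lm * C') hfin (hlogm.mul hr.meas) ?_ ?_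
    · filter_upwards [hlogb, hr.nonneg, hr.le] with x h1 h2 h3 hx
      rw [abs_mul, abs_of_nonneg h2]
      exact mul_le_mul (h1 hx) h3 h2 hLm0
    · filter_upwards [hr.supp] with x h1 hx
      rw [h1 hx, mul_zero]
  have i2 : Integrable (fun x => Real.log (ρ x / z) * r₀ x) m := by
    refine ev_st_integrable_of_bdd (o := o) (R := R₁) (M := Lm * (B / z)) hfin (hlogm.mul hr₀.meas) ?_ ?_
    · filter_upwards [hlogb, hr₀.nonneg, hr₀.le] with x h1 h2 h3 hx
      rw [abs_mul, abs_of_nonneg h2]
      exact mul_le_mul (h1 hx) h3 h2 hLm0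
    · filter_upwards [hr₀supp] with x h1 hx
      rw [h1 hx, mul_zero]
  have i3 : Integrable r m := by
    by_contra hcon
    have := hr.mass
    rw [integral_undef hcon] at this
    exact zero_ne_one this
  have hball : MeasurableSet (Metric.closedBall o R₁) := Metric.isClosed_closedBall.measurableSet
  have hρint : IntegrableOn ρ (Metric.closedBall o R₁) m := by
    have : IsFiniteMeasure (m.restrict (Metric.closedBall o R₁)) :=
      ⟨by rw [Measure.restrict_apply_univ]; exact hfin _ Metric.isBounded_closedBall⟩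
    exact (hρ2.restrict _).integrable (by norm_num)
  have i4 : Integrable (fun x => (Metric.closedBall o R₁).indicator ρ x / z) m :=
    ((integrable_indicator_iff hball).2 hρint).div_const z
  have i5 := ev_st_ent_integrable hfin hr
  have i6 := ev_st_ent_integrable hfin hr₀
  -- pointwise inequality
  have hpt : ∀ᵐ x ∂m, Real.log (ρ x / z) * r x - Real.log (ρ x / z) * r₀ x + r x
      - (Metric.closedBall o R₁).indicator ρ x / z ≤ r x * Real.log (r x) - r₀ x * Real.log (r₀ x) := by
    filter_upwards [hρpos, hr.nonneg, hr.supp] with x h1 h2 h3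
    have hb : 0 < ρ x / z := div_pos h1 hz
    have hconv := ev_st_conv h2 hb
    by_cases hx1 : x ∈ Metric.closedBall o R₁
    · rw [indicator_of_mem hx1]
      by_cases hx : x ∈ Metric.closedBall o R
      · have e : r₀ x = ρ x / z := by
          rw [hr₀def, ev_trunc, indicator_of_mem hx]
        rw [e]
        linarith
      · have e : r₀ x = 0 := by
          rw [hr₀def, ev_trunc, indicator_of_notMem hx, zero_div]
        rw [e]
        simp only [mul_zero, zero_mul, sub_zero]
        linarith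
    · have hx : x ∉ Metric.closedBall o R := fun h => hx1 (hsub h)
      have e : r₀ x = 0 := by
        rw [hr₀def, ev_trunc, indicator_of_notMem hx, zero_div]
      rw [indicator_of_notMem hx1, e, h3 hx1]
      simp
  have hint := integral_mono_ae (((i1.sub i2).add i3).sub i4) (i5.sub i6) hpt
  rw [integral_sub' ((i1.sub i2).add i3) i4, integral_add' (i1.sub i2) i3, integral_sub' i1 i2, integral_sub' i5 i6,
    hr.mass, integral_div, integral_indicator hball] at hint
  have e1 : (ev_mass m o ρ R₁ - z) / z = ev_mass m o ρ R₁ / z - 1 := by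
    field_simp
  rw [e1]
  unfold entF
  have e2 : ev_mass m o ρ R₁ = ∫ x in Metric.closedBall o R₁, ρ x ∂m := rfl
  rw [e2]
  linarith

/-- L8.  `∫ Γ(g,a) d(r₀ m) = ∫ Γ(g,a) r₀ dm` (`Basic.ev_integral_dens`), `Γ(g,a) = Γ(ρ,a)/ρ` a.e. (hypothesis `hlog`), `r₀ = 1_{B_R} ρ / z`, `ρ > 0` a.e. -/
theorem ev_st_chain (hρm : AEStronglyMeasurable ρ m) (hρ0 : ∀ᵐ x ∂m, 0 < ρ x) (hz : 0 < ev_mass m o ρ R)
    (hlog : ∀ᵐ x ∂m, gamma m (fun x => Real.log (ρ x / ev_mass m o ρ R)) a x = gamma m ρ a x / ρ x) :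
    ∫ x, gamma m (fun x => Real.log (ρ x / ev_mass m o ρ R)) a x ∂(dens m (ev_trunc m o ρ R))
      = (∫ x in Metric.closedBall o R, gamma m ρ a x ∂m) / ev_mass m o ρ R := by
  set z := ev_mass m o ρ R with hzdef
  have hmeasT : AEStronglyMeasurable (ev_trunc m o ρ R) m := by
    have h1 : AEStronglyMeasurable ((Metric.closedBall o R).indicator ρ) m :=
      hρm.indicator Metric.isClosed_closedBall.measurableSet
    have h2 := h1.mul_const (ev_mass m o ρ R)⁻¹
    refine h2.congr (Filter.Eventually.of_forall fun x => ?_)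
    simp [ev_trunc, div_eq_mul_inv]
  have hT0 : ∀ᵐ x ∂m, 0 ≤ ev_trunc m o ρ R x := by
    filter_upwards [hρ0] with x hx
    unfold ev_trunc
    refine div_nonneg ?_ hz.le
    by_cases hxB : x ∈ Metric.closedBall o R
    · rw [Set.indicator_of_mem hxB]; exact hx.le
    · rw [Set.indicator_of_notMem hxB]
  rw [ev_integral_dens hmeasT hT0]
  rw [← integral_indicator Metric.isClosed_closedBall.measurableSet, ← integral_div]
  refine integral_congr_ae ?_
  filter_upwards [hρ0, hlog] with x hx hl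
  rw [hl]
  unfold ev_trunc
  by_cases hxB : x ∈ Metric.closedBall o R
  · rw [Set.indicator_of_mem hxB, Set.indicator_of_mem hxB, ← hzdef]
    field_simp
  · rw [Set.indicator_of_notMem hxB, Set.indicator_of_notMem hxB]
    simp

/-- L9.  (`hasDerivAt_iff_tendsto_slope_zero`, `h_n = (1/2)^n D → 0`, `h_n ≠ 0`.) -/
theorem ev_st_quot {G : ℝ → ℝ} (hder : HasDerivAt G p R) (hD : D ≠ 0) :
    Tendsto (fun n : ℕ => (2 : ℝ) ^ n * (G (R + (1 / 2 : ℝ) ^ n * D) - G R)) atTop (𝓝 (D * p)) := by
  have h1 := hasDerivAt_iff_tendsto_slope_zero.1 hder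
  have h2 : Tendsto (fun n : ℕ => (1 / 2 : ℝ) ^ n * D) atTop (𝓝[≠] 0) := by
    rw [tendsto_nhdsWithin_iff]
    constructor
    · have := (tendsto_pow_atTop_nhds_zero_of_lt_one (by norm_num : (0 : ℝ) ≤ 1 / 2) (by norm_num)).mul_const D
      simpa using this
    · exact Eventually.of_forall fun n => by
        simp only [mem_compl_iff, mem_singleton_iff]
        positivity
  have h3 := (h1.comp h2).const_mul D
  refine h3.congr fun n => ?_
  simp only [Function.comp, smul_eq_mul]
  have hp : ((1 / 2 : ℝ) ^ n) ≠ 0 := by positivity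
  have h4 : ((1 / 2 : ℝ) ^ n * D)⁻¹ = 2 ^ n * D⁻¹ := by
    rw [mul_inv, one_div, inv_pow, inv_inv]
  rw [h4]
  field_simp

end Claimed.Agent.R210.EV.StaticA
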