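/-
Row 210 (S0432), layer EV, block S: the static inequality EV1 (entropy slope on a ball, with boundary error).
Sub-architect helper73.  Assembled from the leaves of EV/StaticA.lean, `Need.ev_need_FO3`, `Need.ev_need_log`, `GM.Ifc.gm_GM4`.
-/
import Claimed.Agent.R210.EV.StaticA

set_option autoImplicit false

open Claims.C0366 Claims.C0366.WeakHessian
open Set Filter MeasureTheory
open scoped ENNReal NNReal Topology

namespace Claimed.Agent.R210.EV.Static

open Claimed.Agent.R210.Defs Claimed.Agent.R210.Defs2 Claimed.Agent.R210.EV.Defs Claimed.Agent.R210.EV.Basic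
  Claimed.Agent.R210.EV.StaticA Claimed.Agent.R210.EV.Need Claimed.Agent.R210.GM.Defs Claimed.Agent.R210.GM.Ifc

variable {X : Type*} [MetricSpace X] [MeasurableSpace X] [BorelSpace X]
  [CompleteSpace X] [TopologicalSpace.SeparableSpace X] [ProperSpace X]

/-- **EV1**.  `ρ` bounded Sobolev density, locally bounded below; `μ_R` its normalised restriction to
`closedBall o R`; `R` a differentiability point of the mass function; `(a,b)` a Kantorovich pair of `(μ_R, ν)`. -/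
theorem ev_static {m : Measure X} {K N : ℝ} (hS : Std m K N) {o : X} {ρ : X → ℝ} {B : ℝ}
    (hρS : Sobolev m ρ) (hρB : ∀ᵐ x ∂m, ρ x ≤ B) (hpos : ev_LocPos m o ρ)
    {ν : Measure X} {Mν : ℝ≥0} {R p : ℝ} (hR : 0 < R) (hν : BddDens m ν Mν o R)
    (hder : HasDerivAt (ev_mass m o ρ) p R) {a b : X → ℝ}
    (hk : KPair (dens m (ev_trunc m o ρ R)) ν a b) :
    -(∫ x in Metric.closedBall o R, gamma m ρ a x ∂m) / ev_mass m o ρ R ≤
      Ent m ν - entF m (ev_trunc m o ρ R) - K / 2 * W2sqR (dens m (ev_trunc m o ρ R)) ν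
        + 2 * R * p / ev_mass m o ρ R := by
  have hfin := hS.finite
  have hρ2 : MemLp ρ 2 m := hρS.1
  have hρpos : ∀ᵐ x ∂m, 0 < ρ x := ev_st_pos_ae hpos
  have hρ0 : ∀ᵐ x ∂m, 0 ≤ ρ x := hρpos.mono fun _ h => h.le
  have hz : 0 < ev_mass m o ρ R := ev_st_mass_pos hS.full hfin hρ2 hpos hR
  set z := ev_mass m o ρ R with hzdef
  set r₀ := ev_trunc m o ρ R with hr₀
  set μ₀ := dens m r₀ with hμ₀
  set g : X → ℝ := fun x => Real.log (ρ x / z) with hg
  have hBS : ev_BS m o R (B / z) r₀ := ev_st_trunc_BS hfin hρ2 hρ0 hρB hz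
  have hμ₀B : BddDens m μ₀ (Real.toNNReal (B / z)) o R := ev_BS_bddDens hBS
  have hEnt₀ : Ent m μ₀ = entF m r₀ := ev_Ent_dens hfin hBS.meas hBS.nonneg
  obtain ⟨hgL, hgΓ⟩ := ev_need_log hS hρS hρB hpos hz
  have haL : LocalSobolev m a := (ev_need_lip_local hS hk.lip_a).1
  -- the good geodesic plan
  obtain ⟨π, hπ, -, -, hchain⟩ := gm_GM4 hS hμ₀B hν (gm_HD_two_mul hμ₀B hν) (by positivity)
  -- first order differentiation
  have hFO := ev_need_FO3 hS hμ₀B hν hπ hk hgL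
  have hchainΓ : ∫ x, gamma m g a x ∂μ₀ = (∫ x in Metric.closedBall o R, gamma m ρ a x ∂m) / z :=
    ev_st_chain hρ2.1 hρpos hz (hgΓ a haL)
  -- the boundary term
  have hq := ev_st_quot (D := 2 * R) hder (by positivity)
  -- the inequality at step `n`
  have hstep : ∀ n : ℕ,
      (2 : ℝ) ^ n * (∫ x, g x ∂(interpolation π (gm_half n)) - ∫ x, g x ∂μ₀)
        - ((2 : ℝ) ^ n * (ev_mass m o ρ (R + (1 / 2 : ℝ) ^ n * (2 * R)) - ev_mass m o ρ R)) / z
      ≤ Ent m ν - Ent m μ₀ - K / 2 * W2sqR μ₀ ν := by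
    intro n
    have hB1 : BddDens m (interpolation π (gm_half n)) _ o (R + ((gm_half n : Time) : ℝ) * (2 * R)) :=
      ev_st_interp hπ hμ₀B.conc hν.conc (gm_half n)
    have hcoe : ((gm_half n : Time) : ℝ) = (1 / 2 : ℝ) ^ n := rfl
    rw [hcoe] at hB1
    obtain ⟨hrBS, hrd⟩ := ev_st_rho hfin hB1
    have hR₁ : R ≤ R + (1 / 2 : ℝ) ^ n * (2 * R) := by
      have : 0 ≤ (1 / 2 : ℝ) ^ n * (2 * R) := by positivity
      linarith
    have hconv := ev_st_ent_convex hfin hρ2 hρB hpos hz hR₁ hrBS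
    have e1 : ∫ x, g x ∂(interpolation π (gm_half n))
        = ∫ x, g x * rho m (interpolation π (gm_half n)) x ∂m := by
      conv_lhs => rw [← hrd]
      exact ev_integral_dens hrBS.meas hrBS.nonneg g
    have e2 : ∫ x, g x ∂μ₀ = ∫ x, g x * r₀ x ∂m := ev_integral_dens hBS.meas hBS.nonneg g
    have e3 : Ent m (interpolation π (gm_half n)) = entF m (rho m (interpolation π (gm_half n))) := rfl
    have h2 := hchain n
    have hpow : (0 : ℝ) < 2 ^ n := by positivity
    rw [e1, e2]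
    rw [e3, hEnt₀] at h2
    rw [hEnt₀]
    have h3 := mul_le_mul_of_nonneg_left hconv hpow.le
    calc _ = (2 : ℝ) ^ n * ((∫ x, g x * rho m (interpolation π (gm_half n)) x ∂m - ∫ x, g x * r₀ x ∂m)
            - (ev_mass m o ρ (R + (1 / 2 : ℝ) ^ n * (2 * R)) - ev_mass m o ρ R) / z) := by ring
      _ ≤ _ := h3
      _ ≤ _ := h2
  have hlim : Tendsto (fun n : ℕ =>
      (2 : ℝ) ^ n * (∫ x, g x ∂(interpolation π (gm_half n)) - ∫ x, g x ∂μ₀)
        - ((2 : ℝ) ^ n * (ev_mass m o ρ (R + (1 / 2 : ℝ) ^ n * (2 * R)) - ev_mass m o ρ R)) / z) atTop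
      (𝓝 (-∫ x, gamma m g a x ∂μ₀ - (2 * R * p) / z)) := hFO.sub (hq.div_const z)
  have hfinal := le_of_tendsto' hlim hstep
  rw [hchainΓ, hEnt₀] at hfinal
  have : -(∫ x in Metric.closedBall o R, gamma m ρ a x ∂m) / z
      = -((∫ x in Metric.closedBall o R, gamma m ρ a x ∂m) / z) := by ring
  rw [this]
  linarith

end Claimed.Agent.R210.EV.Static
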