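/-
Row 210 (S0432), layer EV, block EV2, part A: the inequality at a FIXED radius `R` and a fixed perturbation parameter `η`.      Architect helper948.
Notation: `ζ = d(·,o)`, `g = resF m δ f`, `θ = ev_theta m o a`, `g_η = ev_pert m o a η g = (1-η) g + η θ`, `z = ev_mass m o g_η R = ∫_{B_R} g_η`,
`τ = ev_trunc m o g_η R = 1_{B_R} g_η / z`, `(a',b')` a Kantorovich pair of `(τ m, ν)` with `0 ≤ a' ≤ (ζ+Rν)²/2`, slope of `a'` `≤ ζ+Rν`.
Tools (black boxes): EV/Basic, EV/Cut, EV/Wass, EV/Pert, EV/Static (`ev_static` = EV1), OT/Ifc, GC/Ifc, GCD/Ifc.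
Every `sorry` is an independent leaf; earlier statements may be used.
-/
import Claimed.Agent.R210.EV.Pert
import Claimed.Agent.R210.EV.Cut
import Claimed.Agent.R210.EV.Static
import Claimed.Agent.R210.GCD.Ifc

set_option autoImplicit false
set_option linter.unusedSectionVars false

open Claims.C0366 Claims.C0366.WeakHessian
open Set Filter MeasureTheory
open scoped ENNReal NNReal Topology

namespace Claimed.Agent.R210.EV.TwoA

open Claimed.Agent.R210.Defs Claimed.Agent.R210.Defs2 Claimed.Agent.R210.EV.Defs Claimed.Agent.R210.EV.Basic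
  Claimed.Agent.R210.EV.Wass Claimed.Agent.R210.EV.Cut Claimed.Agent.R210.EV.Pert Claimed.Agent.R210.EV.Static
  Claimed.Agent.R210.OT.Defs Claimed.Agent.R210.OT.Ifc Claimed.Agent.R210.GCD.Ifc

variable {X : Type*} [MetricSpace X] [MeasurableSpace X] [BorelSpace X]
  [CompleteSpace X] [TopologicalSpace.SeparableSpace X] [ProperSpace X]
variable {m ν : Measure X} {K N a B B' δ η R Rν p c : ℝ} {M : ℝ≥0} {o : X} {f g τ ρ u v w a' b' : X → ℝ}

/-- the resolvent of a nice density is good. -/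
theorem ev_res_good (hS : Std m K N) (ha : GoodExp m o a) (hf : NiceDens m o a B f) (hδ : 0 < δ)
    (hδa : 4 * δ * a ^ 2 ≤ 1) : ev_Good m o a B (resF m δ f) :=
  ⟨gcd_resF_niceDens hS o ha hδ hδa hf, gcd_resF_sobolev hS hδ (gcd_niceDens_memLp hf),
    (gcd_resF_weight_grad hS o ha.1.le hδ hδa (gcd_niceDens_memLp hf) hf.tail).1⟩

theorem ev_bdd_mono (h : BddDens m ν M o Rν) (hR : Rν ≤ R) : BddDens m ν M o R :=
  ⟨h.prob, h.le, measure_mono_null (compl_subset_compl.2 (Metric.closedBall_subset_closedBall hR)) h.conc⟩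

/-- (`closedBall o Rν = ∅` for `Rν < 0`: `Metric.closedBall_eq_empty`; then `ν univ = 0 ≠ 1`.) -/
theorem ev_bdd_radius_nonneg (h : BddDens m ν M o Rν) : 0 ≤ Rν := by
  by_contra hcon
  have hneg : Rν < 0 := not_le.1 hcon
  have h1 := h.conc
  rw [Metric.closedBall_eq_empty.2 hneg, compl_empty] at h1
  haveI := h.prob
  rw [measure_univ] at h1
  exact one_ne_zero h1

/-- `∫_{B_R} ρ ≥ c m(B_R) > 0`  (`hpos R`, `hfull (ball o R)`, `hfin`; e.g. `setIntegral_pos_iff_support_of_nonneg_ae`, or `setIntegral_mono_on_ae` against the constant `c`). -/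
theorem ev_mass_pos (hfull : FullSupport m) (hfin : FiniteOnBoundedSets m) (hpos : ev_LocPos m o ρ) (hint : Integrable ρ m)
    (hR : 0 < R) : 0 < ev_mass m o ρ R := by
  obtain ⟨c, hc, hae⟩ := hpos R
  have hB0 : 0 < m (Metric.closedBall o R) :=
    lt_of_lt_of_le (hfull _ Metric.isOpen_ball ⟨o, Metric.mem_ball_self hR⟩)
      (measure_mono Metric.ball_subset_closedBall)
  have hB1 : m (Metric.closedBall o R) < ∞ := hfin _ Metric.isBounded_closedBall
  have hic : IntegrableOn (fun _ : X => c) (Metric.closedBall o R) m := integrableOn_const hB1.ne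
  have h1 : ∫ _ in Metric.closedBall o R, c ∂m ≤ ∫ x in Metric.closedBall o R, ρ x ∂m :=
    setIntegral_mono_on_ae hic hint.integrableOn Metric.isClosed_closedBall.measurableSet hae
  rw [setIntegral_const, smul_eq_mul] at h1
  have h2 : 0 < m.real (Metric.closedBall o R) := ENNReal.toReal_pos hB0.ne' hB1.ne
  unfold ev_mass
  exact lt_of_lt_of_le (mul_pos h2 hc) h1

/-- `(ζ+c)²/2 · ρ` is integrable (`Basic.ev_nice_moment`, `k = 0, 1, 2`). -/
theorem ev_nice_weight (ha : GoodExp m o a) (h : NiceDens m o a B ρ) (c : ℝ) :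
    Integrable (fun x => (dist x o + c) ^ 2 / 2 * ρ x) m := by
  have h0 := ev_nice_moment ha h 0
  have h1 := ev_nice_moment ha h 1
  have h2 := ev_nice_moment ha h 2
  have h3 := ((h2.const_mul (1 / 2)).add (h1.const_mul c)).add (h0.const_mul (c ^ 2 / 2))
  refine h3.congr (Eventually.of_forall fun x => ?_)
  simp only [Pi.add_apply]
  ring

/-- **duality.**  `W²(τ m,ν)/2 = ∫ a' τ + ∫ b' dν` (`ot_kpair_eq`), `W²(f m,ν)/2 ≥ ∫ a' f + ∫ b' dν` (`ot_weak_duality'`), `Basic.ev_integral_dens`, `Basic.ev_dens_prob`, `Basic.ev_nice_secondMoment`. -/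
theorem ev_two_dual (ha : GoodExp m o a) (hτ : NiceDens m o a B τ) (hf : NiceDens m o a B' f)
    (hν : IsProbabilityMeasure ν) (h2 : HasSecondMoment ν) (hk : KPair (dens m τ) ν a' b') :
    W2sqR (dens m τ) ν / 2 - W2sqR (dens m f) ν / 2 ≤ ∫ x, a' x * τ x ∂m - ∫ x, a' x * f x ∂m := by
  haveI := ev_dens_prob hτ
  have h1 := ot_kpair_eq hk
  obtain ⟨La, hLa⟩ := hk.lip_a
  obtain ⟨Lb, hLb⟩ := hk.lip_b
  have h3 := ot_weak_duality' (ev_dens_prob hf) hν (ev_nice_secondMoment ha hf) h2 hLa.continuous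
    hLb.continuous hk.bdd_a hk.bdd_b hk.le
  rw [ev_integral_dens hτ.meas hτ.nonneg] at h1
  rw [ev_integral_dens hf.meas hf.nonneg] at h3
  linarith

theorem ev_int_abs_le (hle : ∀ x, |a' x| ≤ w x) (hw : Integrable (fun x => w x * |u x|) m) :
    |∫ x, a' x * u x ∂m| ≤ ∫ x, w x * |u x| ∂m := by
  rw [← Real.norm_eq_abs]
  refine norm_integral_le_of_norm_le hw (ae_of_all _ fun x => ?_)
  rw [Real.norm_eq_abs, abs_mul]
  exact mul_le_mul_of_nonneg_right (hle x) (abs_nonneg _)

/-- `∫ a' τ - ∫ a' g = ∫ a' (τ - g_η) + η ∫ a' (θ - g)`  (`g_η - g = η (θ - g)`; `a'` bounded continuous, all densities integrable), then `ev_int_abs_le` with `w = (ζ+c)²/2`;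
`w |τ - g_η| ≤ w τ + w g_η`, `w |θ - g| ≤ w θ + w g` are integrable by `ev_nice_weight` (`θ` nice: `(Pert.ev_theta_good hS ha).nice`;  `g_η = (1-η) g + η θ`). -/
theorem ev_two_split (hS : Std m K N) (ha : GoodExp m o a) (hg : NiceDens m o a B g) (hτ : NiceDens m o a B' τ)
    (hη0 : 0 ≤ η) (hη1 : η ≤ 1) (hcont : Continuous a') (hbd : BoundedFunction a') (h0 : ∀ x, 0 ≤ a' x)
    (hle : ∀ x, a' x ≤ (dist x o + c) ^ 2 / 2) :
    ∫ x, a' x * τ x ∂m ≤ ∫ x, a' x * g x ∂m
      + η * ∫ x, (dist x o + c) ^ 2 / 2 * |ev_theta m o a x - g x| ∂m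
      + ∫ x, (dist x o + c) ^ 2 / 2 * |τ x - ev_pert m o a η g x| ∂m := by
  have hθ : NiceDens m o a _ (ev_theta m o a) := (ev_theta_good hS ha).nice
  have hw0 : ∀ x, 0 ≤ (dist x o + c) ^ 2 / 2 := fun x => by positivity
  have habs : ∀ x, |a' x| ≤ (dist x o + c) ^ 2 / 2 := fun x => by
    rw [abs_of_nonneg (h0 x)]; exact hle x
  have wg := ev_nice_weight ha hg c
  have wτ := ev_nice_weight ha hτ c
  have wθ := ev_nice_weight ha hθ c
  -- the weighted differences
  have w1 : Integrable (fun x => (dist x o + c) ^ 2 / 2 * (ev_theta m o a x - g x)) m := by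
    refine (wθ.sub wg).congr (Eventually.of_forall fun x => ?_)
    simp only [Pi.sub_apply]
    ring
  have w2 : Integrable (fun x => (dist x o + c) ^ 2 / 2 * (τ x - ev_pert m o a η g x)) m := by
    refine ((wτ.sub (wg.const_mul (1 - η))).sub (wθ.const_mul η)).congr
      (Eventually.of_forall fun x => ?_)
    simp only [Pi.sub_apply, ev_pert]
    ring
  have w1' : Integrable (fun x => (dist x o + c) ^ 2 / 2 * |ev_theta m o a x - g x|) m := by
    refine w1.abs.congr (Eventually.of_forall fun x => ?_)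
    simp only [abs_mul, abs_of_nonneg (hw0 x)]
  have w2' : Integrable (fun x => (dist x o + c) ^ 2 / 2 * |τ x - ev_pert m o a η g x|) m := by
    refine w2.abs.congr (Eventually.of_forall fun x => ?_)
    simp only [abs_mul, abs_of_nonneg (hw0 x)]
  -- integrability against `a'`
  have key : ∀ u : X → ℝ, AEStronglyMeasurable u m →
      Integrable (fun x => (dist x o + c) ^ 2 / 2 * u x) m → Integrable (fun x => a' x * u x) m := by
    intro u hu hwu
    refine hwu.mono (hcont.aestronglyMeasurable.mul hu) (ae_of_all _ fun x => ?_)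
    rw [Real.norm_eq_abs, Real.norm_eq_abs, abs_mul, abs_mul, abs_of_nonneg (hw0 x)]
    exact mul_le_mul_of_nonneg_right (habs x) (abs_nonneg _)
  have mη : AEStronglyMeasurable (ev_pert m o a η g) m :=
    (hg.meas.const_mul (1 - η)).add (hθ.meas.const_mul η)
  have i0 := key g hg.meas wg
  have i1 := key (fun x => ev_theta m o a x - g x) (hθ.meas.sub hg.meas) w1
  have i2 := key (fun x => τ x - ev_pert m o a η g x) (hτ.meas.sub mη) w2
  have e : ∫ x, a' x * τ x ∂m = ∫ x, a' x * g x ∂m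
      + η * ∫ x, a' x * (ev_theta m o a x - g x) ∂m
      + ∫ x, a' x * (τ x - ev_pert m o a η g x) ∂m := by
    have i3 : Integrable (fun x => a' x * g x + η * (a' x * (ev_theta m o a x - g x))) m :=
      i0.add (i1.const_mul η)
    rw [← integral_const_mul, ← integral_add i0 (i1.const_mul η), ← integral_add i3 i2]
    refine integral_congr_ae (Eventually.of_forall fun x => ?_)
    simp only [ev_pert]
    ring
  have b1 := (le_abs_self _).trans (ev_int_abs_le (m := m) (u := fun x => ev_theta m o a x - g x) habs w1')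
  have b2 := (le_abs_self _).trans
    (ev_int_abs_le (m := m) (u := fun x => τ x - ev_pert m o a η g x) habs w2')
  have b3 := mul_le_mul_of_nonneg_left b1 hη0
  rw [e]
  linarith

/-- integration by parts for the resolvent. -/
theorem ev_two_ibp (hS : Std m K N) (ha : GoodExp m o a) (hf : NiceDens m o a B f) (hδ : 0 < δ)
    (hδa : 4 * δ * a ^ 2 ≤ 1) (hv : LipB v) :
    ∫ x, v x * resF m δ f x ∂m - ∫ x, v x * f x ∂m = -(δ * ∫ x, gamma m (resF m δ f) v x ∂m) := by
  have h := (gcd_resF_weak_lipB hS o ha hδ hδa (gcd_niceDens_memLp hf) hf.tail hv).2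
  simp only [mul_comm (v _)]
  linarith

/-- **the gradient term.**   `∫Γ(g_η,a') = (1-η)∫Γ(g,a') + η∫Γ(θ,a')` (`Pert.ev_pert_gamma`);   `∫Γ(θ,a') ≤ ∫(ζ+Rν)|Dθ|` (`Pert.ev_gamma_abs_le`, `Pert.ev_gamma_integrable`, `Pert.ev_good_grad_integrable'`, `Pert.ev_theta_good`);
`∫Γ(g_η,a') = ∫_{B_R} + ∫_{B_R^c}` (`integral_add_compl`, `Pert.ev_pert_good`), `-∫_{B_R^c}Γ(g_η,a') ≤ ∫_{B_R^c}(ζ+Rν)|Dg_η|`;
`-∫_{B_R}Γ(g_η,a') ≤ z (Ent ν - entF τ - K/2 W²) + 2Rp`:  `Static.ev_static` (with `ev_bdd_mono`, `Pert.ev_pert_locPos`) multiplied by `z > 0` (`ev_mass_pos`). -/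
theorem ev_two_gamma (hS : Std m K N) (ha : GoodExp m o a) (hg : ev_Good m o a B g) (hη0 : 0 < η) (hη1 : η < 1)
    (hR : 0 < R) (hRν : Rν ≤ R) (hν : BddDens m ν M o Rν)
    (hder : HasDerivAt (ev_mass m o (ev_pert m o a η g)) p R)
    (hk : KPair (dens m (ev_trunc m o (ev_pert m o a η g) R)) ν a' b')
    (hsl : ∀ x, localSlope a' x ≤ ENNReal.ofReal (dist x o + Rν)) :
    -((1 - η) * ∫ x, gamma m g a' x ∂m) ≤
      ev_mass m o (ev_pert m o a η g) R * (Ent m ν - entF m (ev_trunc m o (ev_pert m o a η g) R)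
          - K / 2 * W2sqR (dens m (ev_trunc m o (ev_pert m o a η g) R)) ν)
        + 2 * R * p
        + ∫ x in (Metric.closedBall o R)ᶜ, (dist x o + Rν) * weakGradient m (ev_pert m o a η g) x ∂m
        + η * ∫ x, (dist x o + Rν) * weakGradient m (ev_theta m o a) x ∂m := by
  have hθ := ev_theta_good hS ha
  have hgη := ev_pert_good hS ha hg hη0.le hη1.le
  have hpos : ev_LocPos m o (ev_pert m o a η g) := ev_pert_locPos hS.full ha hg.nice.nonneg hη0 hη1.le
  have hz : 0 < ev_mass m o (ev_pert m o a η g) R := ev_mass_pos hS.full hS.finite hpos hgη.nice.int hR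
  have hRν0 : 0 ≤ Rν := ev_bdd_radius_nonneg hν
  have e1 := ev_pert_gamma hS ha hg hk.lip_a η
  have iθ : Integrable (gamma m (ev_theta m o a) a') m := ev_gamma_integrable hS ha hθ hk.lip_a
  have igη : Integrable (gamma m (ev_pert m o a η g) a') m := ev_gamma_integrable hS ha hgη hk.lip_a
  -- the `θ` term
  have b1 : ∫ x, gamma m (ev_theta m o a) a' x ∂m
      ≤ ∫ x, (dist x o + Rν) * weakGradient m (ev_theta m o a) x ∂m := by
    refine integral_mono_ae iθ (ev_good_grad_integrable' ha hθ Rν) ?_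
    filter_upwards [ev_gamma_abs_le hS hθ.sob.2.1 hk.lip_a hRν0 hsl] with x hx
    exact (le_abs_self _).trans hx
  -- splitting
  have e2 := integral_add_compl (μ := m) (s := Metric.closedBall o R)
    Metric.isClosed_closedBall.measurableSet igη
  -- the exterior term
  have b2 : -(∫ x in (Metric.closedBall o R)ᶜ, gamma m (ev_pert m o a η g) a' x ∂m)
      ≤ ∫ x in (Metric.closedBall o R)ᶜ, (dist x o + Rν) * weakGradient m (ev_pert m o a η g) x ∂m := by
    rw [← integral_neg]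
    refine integral_mono_ae igη.neg.integrableOn (ev_good_grad_integrable' ha hgη Rν).integrableOn ?_
    refine ae_restrict_of_ae ?_
    filter_upwards [ev_gamma_abs_le hS hgη.sob.2.1 hk.lip_a hRν0 hsl] with x hx
    exact (neg_le_abs _).trans hx
  -- the interior term: EV1
  have b3 := ev_static hS hgη.sob hgη.nice.le hpos hR (ev_bdd_mono hν hRν) hder hk
  have b4 : -(∫ x in Metric.closedBall o R, gamma m (ev_pert m o a η g) a' x ∂m)
      ≤ ev_mass m o (ev_pert m o a η g) R * (Ent m ν - entF m (ev_trunc m o (ev_pert m o a η g) R)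
          - K / 2 * W2sqR (dens m (ev_trunc m o (ev_pert m o a η g) R)) ν) + 2 * R * p := by
    have b5 := mul_le_mul_of_nonneg_left b3 hz.le
    rw [mul_div_cancel₀ _ hz.ne', mul_add, mul_div_cancel₀ _ hz.ne'] at b5
    exact b5
  have b6 := mul_le_mul_of_nonneg_left b1 hη0.le
  linarith

/-- **EV2 at fixed `R`, `η`.** -/
theorem ev_two_fixed (hS : Std m K N) (ha : GoodExp m o a) (hf : NiceDens m o a B f) (hδ : 0 < δ)
    (hδa : 4 * δ * a ^ 2 ≤ 1) (hη0 : 0 < η) (hη1 : η < 1) (hR : 0 < R) (hRν : Rν ≤ R) (hν : BddDens m ν M o Rν)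
    (hder : HasDerivAt (ev_mass m o (ev_pert m o a η (resF m δ f))) p R) :
    W2sqR (dens m (ev_trunc m o (ev_pert m o a η (resF m δ f)) R)) ν / 2 - W2sqR (dens m f) ν / 2 ≤
      δ / (1 - η) * (ev_mass m o (ev_pert m o a η (resF m δ f)) R *
            (Ent m ν - entF m (ev_trunc m o (ev_pert m o a η (resF m δ f)) R)
              - K / 2 * W2sqR (dens m (ev_trunc m o (ev_pert m o a η (resF m δ f)) R)) ν)
          + 2 * R * p
          + ∫ x in (Metric.closedBall o R)ᶜ, (dist x o + Rν) * weakGradient m (ev_pert m o a η (resF m δ f)) x ∂m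
          + η * ∫ x, (dist x o + Rν) * weakGradient m (ev_theta m o a) x ∂m)
        + η * ∫ x, (dist x o + Rν) ^ 2 / 2 * |ev_theta m o a x - resF m δ f x| ∂m
        + ∫ x, (dist x o + Rν) ^ 2 / 2
            * |ev_trunc m o (ev_pert m o a η (resF m δ f)) R x - ev_pert m o a η (resF m δ f) x| ∂m := by
  set g := resF m δ f with hgdef
  have hg : ev_Good m o a B g := ev_res_good hS ha hf hδ hδa
  set gη := ev_pert m o a η g with hgη
  have hgη' := ev_pert_good hS ha hg hη0.le hη1.le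
  have hpos : ev_LocPos m o gη := ev_pert_locPos hS.full ha hg.nice.nonneg hη0 hη1.le
  have hz : 0 < ev_mass m o gη R := ev_mass_pos hS.full hS.finite hpos hgη'.nice.int hR
  have hBS := ev_trunc_BS hgη'.nice hz
  have hτ := ev_cpt_nice hS.finite hBS a
  have hτb := ev_BS_bddDens hBS
  obtain ⟨a', b', T, hk, h0, hle, hsl, -⟩ := ot_kpair_ball hτb.prob hν.prob hτb.conc hν.conc
  have hRν0 := ev_bdd_radius_nonneg hν
  have h1 := ev_two_dual ha hτ hf hν.prob (ot_secondMoment_of_bddDens hν) hk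
  obtain ⟨L, hL⟩ := hk.lip_a
  have h2 := ev_two_split (c := Rν) hS ha hg.nice hτ hη0.le hη1.le hL.continuous hk.bdd_a h0 hle
  have h3 := ev_two_ibp hS ha hf hδ hδa (v := a') ⟨hk.lip_a, hk.bdd_a⟩
  have h4 := ev_two_gamma hS ha hg hη0 hη1 hR hRν hν hder hk hsl
  have hη' : 0 < 1 - η := by linarith
  have h5 : -(δ * ∫ x, gamma m g a' x ∂m) = δ / (1 - η) * (-((1 - η) * ∫ x, gamma m g a' x ∂m)) := by
    field_simp
  have h6 := mul_le_mul_of_nonneg_left h4 (div_pos hδ hη').le
  linarith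

end Claimed.Agent.R210.EV.TwoA
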