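/-
Row 210 (S0432), layer EV, block EV2, part B: the limits `R → ∞` (along good radii) and `η → 0`.      Architect helper948.
Notation as in EV/TwoA.lean.
-/
import Claimed.Agent.R210.EV.TwoA
import Claimed.Agent.R210.EV.Radii

set_option autoImplicit false
set_option linter.unusedSectionVars false

open Claims.C0366 Claims.C0366.WeakHessian
open Set Filter MeasureTheory
open scoped ENNReal NNReal Topology

namespace Claimed.Agent.R210.EV.TwoB

open Claimed.Agent.R210.Defs Claimed.Agent.R210.Defs2 Claimed.Agent.R210.EV.Defs Claimed.Agent.R210.EV.Basic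
  Claimed.Agent.R210.EV.Wass Claimed.Agent.R210.EV.Cut Claimed.Agent.R210.EV.Pert Claimed.Agent.R210.EV.TwoA
  Claimed.Agent.R210.EV.Radii Claimed.Agent.R210.OT.Defs Claimed.Agent.R210.OT.Ifc Claimed.Agent.R210.GCD.Ifc

variable {X : Type*} [MetricSpace X] [MeasurableSpace X] [BorelSpace X]
  [CompleteSpace X] [TopologicalSpace.SeparableSpace X] [ProperSpace X]
variable {m ν : Measure X} {K N a B B' δ η R Rν p c : ℝ} {M : ℝ≥0} {o : X} {f g τ ρ σ u v w a' b' : X → ℝ}

/-- continuity of `W₂` along the truncations. -/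
theorem ev_trunc_W2_tendsto (hfin : FiniteOnBoundedSets m) (ha : GoodExp m o a) (h : NiceDens m o a B ρ)
    (hν : IsProbabilityMeasure ν) (h2 : HasSecondMoment ν) :
    Tendsto (fun R : ℝ => W2sqR (dens m (ev_trunc m o ρ R)) ν) atTop (𝓝 (W2sqR (dens m ρ) ν)) := by
  have hz : ∀ᶠ R : ℝ in atTop, 0 < ev_mass m o ρ R :=
    (ev_mass_tendsto h).eventually (lt_mem_nhds one_pos)
  refine ev_W2_tendsto (Bs := fun R => B / ev_mass m o ρ R) ha ?_ h ?_ hν h2
  · filter_upwards [hz] with R hR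
    exact ev_cpt_nice hfin (ev_trunc_BS h hR) a
  · exact ev_trunc_weight_tendsto h (fun x => by positivity) (ev_nice_moment ha h 2)

/-- **EV2 for the perturbed density** (limit `R → ∞` of `TwoA.ev_two_fixed` along the good radii of `Radii.ev_radii_seq`). -/
theorem ev_two_eta (hS : Std m K N) (ha : GoodExp m o a) (hf : NiceDens m o a B f) (hδ : 0 < δ)
    (hδa : 4 * δ * a ^ 2 ≤ 1) (hη0 : 0 < η) (hη1 : η < 1) (hν : BddDens m ν M o Rν) :
    W2sqR (dens m (ev_pert m o a η (resF m δ f))) ν / 2 - W2sqR (dens m f) ν / 2 ≤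
      δ / (1 - η) * ((Ent m ν - entF m (ev_pert m o a η (resF m δ f))
              - K / 2 * W2sqR (dens m (ev_pert m o a η (resF m δ f))) ν)
          + η * ∫ x, (dist x o + Rν) * weakGradient m (ev_theta m o a) x ∂m)
        + η * ∫ x, (dist x o + Rν) ^ 2 / 2 * |ev_theta m o a x - resF m δ f x| ∂m := by
  set g := resF m δ f with hgdef
  have hg : ev_Good m o a B g := ev_res_good hS ha hf hδ hδa
  set gη := ev_pert m o a η g with hgη
  have hgη' := ev_pert_good hS ha hg hη0.le hη1.le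
  have hn := hgη'.nice
  have h2ν := ot_secondMoment_of_bddDens hν
  obtain ⟨Rs, hRs, hdiff, hlim⟩ := ev_radii_seq (G := ev_mass m o gη) (ev_mass_mono hn) (C := 1)
    (fun r => abs_le.2 ⟨by linarith [ev_mass_nonneg hn r], ev_mass_le_one hn r⟩)
  have t1 := (ev_trunc_W2_tendsto hS.finite ha hn hν.prob h2ν).comp hRs
  have t2 := (ev_mass_tendsto hn).comp hRs
  have t3 := (ev_trunc_ent_tendsto ha hn).comp hRs
  have t4 := (ev_tail_tendsto (ev_good_grad_integrable' ha hgη' Rν) o).comp hRs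
  have t5 := (ev_trunc_weight_tendsto hn (w := fun x => (dist x o + Rν) ^ 2 / 2) (fun x => by positivity)
    (ev_nice_weight ha hn Rν)).comp hRs
  have hev : ∀ᶠ j in atTop, max Rν 1 ≤ Rs j := hRs.eventually_ge_atTop _
  set C1 := ∫ x, (dist x o + Rν) * weakGradient m (ev_theta m o a) x ∂m
  set C2 := ∫ x, (dist x o + Rν) ^ 2 / 2 * |ev_theta m o a x - g x| ∂m
  have hL : Tendsto (fun j => W2sqR (dens m (ev_trunc m o gη (Rs j))) ν / 2 - W2sqR (dens m f) ν / 2) atTop
      (𝓝 (W2sqR (dens m gη) ν / 2 - W2sqR (dens m f) ν / 2)) := (t1.div_const 2).sub_const _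
  have hR : Tendsto (fun j => δ / (1 - η) * (ev_mass m o gη (Rs j) *
            (Ent m ν - entF m (ev_trunc m o gη (Rs j)) - K / 2 * W2sqR (dens m (ev_trunc m o gη (Rs j))) ν)
          + 2 * (Rs j * deriv (ev_mass m o gη) (Rs j))
          + ∫ x in (Metric.closedBall o (Rs j))ᶜ, (dist x o + Rν) * weakGradient m gη x ∂m
          + η * C1) + η * C2
        + ∫ x, (dist x o + Rν) ^ 2 / 2 * |ev_trunc m o gη (Rs j) x - gη x| ∂m) atTop
      (𝓝 (δ / (1 - η) * (1 * (Ent m ν - entF m gη - K / 2 * W2sqR (dens m gη) ν) + 2 * 0 + 0 + η * C1)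
        + η * C2 + 0)) :=
    (((((t2.mul ((t3.const_sub _).sub (t1.const_mul _))).add (hlim.const_mul 2)).add t4).add_const _).const_mul
      _ |>.add_const _).add t5
  have hle := le_of_tendsto_of_tendsto hL hR (by
    filter_upwards [hev] with j hj
    have h := ev_two_fixed hS ha hf hδ hδa hη0 hη1 (R := Rs j) (by linarith [le_max_right Rν 1])
      ((le_max_left Rν 1).trans hj) hν (hdiff j).hasDerivAt
    simp only [mul_assoc] at h ⊢
    exact h)
  simpa using hle

/-- **EV2** : discrete EVI, observer `ν` with bounded density and bounded support  (limit `η → 0+` of `ev_two_eta`). -/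
theorem ev_two_bdd (hS : Std m K N) (ha : GoodExp m o a) (hf : NiceDens m o a B f) (hδ : 0 < δ)
    (hδa : 4 * δ * a ^ 2 ≤ 1) (hν : BddDens m ν M o Rν) :
    W2sqR (dens m (resF m δ f)) ν / 2 - W2sqR (dens m f) ν / 2 ≤
      δ * (Ent m ν - entF m (resF m δ f) - K / 2 * W2sqR (dens m (resF m δ f)) ν) := by
  set g := resF m δ f with hgdef
  have hg : ev_Good m o a B g := ev_res_good hS ha hf hδ hδa
  have h2ν := ot_secondMoment_of_bddDens hν
  have t1 := ev_pert_W2_tendsto hS ha hg.nice hν.prob h2ν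
  have t2 := ev_pert_ent_tendsto hS ha hg.nice
  have t0 : Tendsto (fun η : ℝ => η) (𝓝[>] 0) (𝓝 0) := tendsto_nhdsWithin_of_tendsto_nhds tendsto_id
  set C1 := ∫ x, (dist x o + Rν) * weakGradient m (ev_theta m o a) x ∂m
  set C2 := ∫ x, (dist x o + Rν) ^ 2 / 2 * |ev_theta m o a x - g x| ∂m
  have hL : Tendsto (fun η : ℝ => W2sqR (dens m (ev_pert m o a η g)) ν / 2 - W2sqR (dens m f) ν / 2) (𝓝[>] 0)
      (𝓝 (W2sqR (dens m g) ν / 2 - W2sqR (dens m f) ν / 2)) := (t1.div_const 2).sub_const _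
  have t3 : Tendsto (fun η : ℝ => δ / (1 - η)) (𝓝[>] 0) (𝓝 (δ / (1 - 0))) :=
    tendsto_const_nhds.div (t0.const_sub 1) (by norm_num)
  have hR : Tendsto (fun η : ℝ => δ / (1 - η) * ((Ent m ν - entF m (ev_pert m o a η g)
              - K / 2 * W2sqR (dens m (ev_pert m o a η g)) ν) + η * C1) + η * C2) (𝓝[>] 0)
      (𝓝 (δ / (1 - 0) * ((Ent m ν - entF m g - K / 2 * W2sqR (dens m g) ν) + 0 * C1) + 0 * C2)) :=
    (t3.mul (((t2.const_sub _).sub (t1.const_mul _)).add (t0.mul_const _))).add (t0.mul_const _)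
  have hev : ∀ᶠ η : ℝ in 𝓝[>] 0, 0 < η ∧ η < 1 := by
    filter_upwards [self_mem_nhdsWithin, nhdsWithin_le_nhds (Iio_mem_nhds (zero_lt_one' ℝ))] with η h1 h2
    exact ⟨h1, h2⟩
  have hle := le_of_tendsto_of_tendsto hL hR (by
    filter_upwards [hev] with η hη
    exact ev_two_eta hS ha hf hδ hδa hη.1 hη.2 hν)
  simpa using hle

/-- **EV2'** : discrete EVI, observer `σ m` with `σ` nice  (`ev_two_bdd` for `ν_R = (ev_trunc m o σ R) m`, `R → ∞`). -/
theorem ev_two_nice (hS : Std m K N) (ha : GoodExp m o a) (hf : NiceDens m o a B f) (hδ : 0 < δ)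
    (hδa : 4 * δ * a ^ 2 ≤ 1) (hσ : NiceDens m o a B' σ) :
    W2sqR (dens m (resF m δ f)) (dens m σ) / 2 - W2sqR (dens m f) (dens m σ) / 2 ≤
      δ * (entF m σ - entF m (resF m δ f) - K / 2 * W2sqR (dens m (resF m δ f)) (dens m σ)) := by
  set g := resF m δ f with hgdef
  have hg : ev_Good m o a B g := ev_res_good hS ha hf hδ hδa
  have comm : ∀ μ₁ μ₂ : Measure X, W2sqR μ₁ μ₂ = W2sqR μ₂ μ₁ := fun μ₁ μ₂ => by
    unfold W2sqR; rw [ot_W2sq_comm]
  have t1 : Tendsto (fun R : ℝ => W2sqR (dens m g) (dens m (ev_trunc m o σ R))) atTop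
      (𝓝 (W2sqR (dens m g) (dens m σ))) := by
    simp only [comm (dens m g)]
    exact ev_trunc_W2_tendsto hS.finite ha hσ (ev_dens_prob hg.nice) (ev_nice_secondMoment ha hg.nice)
  have t2 : Tendsto (fun R : ℝ => W2sqR (dens m f) (dens m (ev_trunc m o σ R))) atTop
      (𝓝 (W2sqR (dens m f) (dens m σ))) := by
    simp only [comm (dens m f)]
    exact ev_trunc_W2_tendsto hS.finite ha hσ (ev_dens_prob hf) (ev_nice_secondMoment ha hf)
  have t3 := ev_trunc_ent_tendsto ha hσ
  have hz : ∀ᶠ R : ℝ in atTop, 0 < ev_mass m o σ R :=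
    (ev_mass_tendsto hσ).eventually (lt_mem_nhds one_pos)
  refine le_of_tendsto_of_tendsto ((t1.div_const 2).sub (t2.div_const 2))
    (((t3.sub_const _).sub (t1.const_mul _)).const_mul δ) ?_
  filter_upwards [hz] with R hR
  have hBS := ev_trunc_BS hσ hR
  have h := ev_two_bdd hS ha hf hδ hδa (ev_BS_bddDens hBS)
  rwa [ev_Ent_dens hS.finite hBS.meas hBS.nonneg] at h

end Claimed.Agent.R210.EV.TwoB
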