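/-
Row 210 (S0432), layer EV, block EV2: the DISCRETE EVI for one step of the L² resolvent `J = resF m δ`.      Architect helper948.
   `(1 + K δ) W²(Jf m, ν)/2 - W²(f m, ν)/2 ≤ δ (Ent ν - Ent (Jf m))`.
`ev_two`  : `ν` with bounded density and bounded support;      `ev_two'` : `ν = σ m`, `σ` nice.
Proofs: EV/TwoA.lean (fixed radius `R` and perturbation parameter `η`), EV/TwoB.lean (limits `R → ∞`, `η → 0`; observer `σ m`).
-/
import Claimed.Agent.R210.EV.TwoB

set_option autoImplicit false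
set_option linter.unusedVariables false

open Claims.C0366 Claims.C0366.WeakHessian
open Set Filter MeasureTheory
open scoped ENNReal NNReal Topology

namespace Claimed.Agent.R210.EV.Two

open Claimed.Agent.R210.Defs Claimed.Agent.R210.Defs2 Claimed.Agent.R210.EV.Defs

variable {X : Type*} [MetricSpace X] [MeasurableSpace X] [BorelSpace X]
  [CompleteSpace X] [TopologicalSpace.SeparableSpace X] [ProperSpace X]
variable {m ν : Measure X} {K N a B B' δ Rν : ℝ} {M : ℝ≥0} {o : X} {f σ : X → ℝ}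

/-- **EV2.** -/
theorem ev_two (hS : Std m K N) (ha : GoodExp m o a) (hf : NiceDens m o a B f) (hδ : 0 < δ)
    (hδa : 4 * δ * a ^ 2 ≤ 1) (hδK : 0 < 1 + K * δ) (hν : BddDens m ν M o Rν) :
    (1 + K * δ) * (W2sqR (dens m (resF m δ f)) ν / 2) - W2sqR (dens m f) ν / 2
      ≤ δ * (Ent m ν - entF m (resF m δ f)) := by
  have h := TwoB.ev_two_bdd hS ha hf hδ hδa hν
  linarith

/-- **EV2'.** -/
theorem ev_two' (hS : Std m K N) (ha : GoodExp m o a) (hf : NiceDens m o a B f) (hδ : 0 < δ)
    (hδa : 4 * δ * a ^ 2 ≤ 1) (hδK : 0 < 1 + K * δ) (hσ : NiceDens m o a B' σ) :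
    (1 + K * δ) * (W2sqR (dens m (resF m δ f)) (dens m σ) / 2) - W2sqR (dens m f) (dens m σ) / 2
      ≤ δ * (entF m σ - entF m (resF m δ f)) := by
  have h := TwoB.ev_two_nice hS ha hf hδ hδa hσ
  linarith

end Claimed.Agent.R210.EV.Two
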