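/-
Row 210 (S0432), layer EV, block EV3 (W₂-contraction of the heat flow): LEAVES.      Sub-architect helper898 (architect of EV: helper948).
Paper proof: `git show origin/helper928:docs/R210_partZ.md`, last section (EV3), with ONE simplification (no Abel summation, see `ev_th_gronwall`).

`δ = t/(n+1)`, `J = resF m δ`, `f_j = J^[j] f`, `g_j = J^[j] g`, `D_j = W²(f_j m, g_j m)/2`, `q = 1 + K δ ∈ (0,1]`, `e_j = entF m g_j`.
 T1  `f_j` is `NiceDens m o a B`, `ev_tail f_j ≤ e^{8 a² δ j} ev_tail f`                 (HF: `hf3_res_nice`, `hf2_res_wn`)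
 T2  `q² D_{j+1} - D_j ≤ δ (e_j - e_{j+1}) + K δ² (entF f_{j+1} - entF g_{j+1})`          (`ev_two'` twice, symmetry of `W2sq`)
 T3  real sequences: `q^{2n} D_n ≤ D_0 + 2 δ C + n c`
 T4  `n → ∞`: exponential formula `hf0_heat_limit`, weak convergence `ev_wconv_of_L2`, lower semicontinuity `ot_lsc`.
The glue is in `EV/Three.lean`.
-/
import Claimed.Agent.R210.EV.Two
import Claimed.Agent.R210.EV.Wass
import Claimed.Agent.R210.HF.Ifc

set_option autoImplicit false

open Claims.C0366 Claims.C0366.WeakHessian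
open Set Filter MeasureTheory
open scoped ENNReal NNReal Topology

namespace Claimed.Agent.R210.EV.Th

open Claimed.Agent.R210.Defs Claimed.Agent.R210.Defs2 Claimed.Agent.R210.EV.Defs Claimed.Agent.R210.EV.Basic
  Claimed.Agent.R210.EV.Wass Claimed.Agent.R210.EV.Two Claimed.Agent.R210.HF.Defs Claimed.Agent.R210.HF.Ifc
  Claimed.Agent.R210.OT.Defs Claimed.Agent.R210.OT.Ifc

variable {X : Type*} [MetricSpace X] [MeasurableSpace X] [BorelSpace X]
  [CompleteSpace X] [TopologicalSpace.SeparableSpace X] [ProperSpace X]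
variable {m : Measure X} {K N a B t δ : ℝ} {o : X} {f g ρ : X → ℝ}

/-! ### T1: the iterates -/

theorem ev_th_tail_nonneg (m : Measure X) (o : X) (a : ℝ) (ρ : X → ℝ) : 0 ≤ ev_tail m o a ρ := by
  unfold ev_tail
  exact integral_nonneg fun x => mul_nonneg (Real.exp_pos _).le (sq_nonneg _)

/-- dictionary between the `ℝ≥0∞` valued `hf_wn` of HF and the real `ev_tail`
(`ofReal_integral_eq_lintegral_ofReal` with `h.tail` and pointwise nonnegativity). -/
theorem ev_th_wn_eq (h : NiceDens m o a B ρ) : hf_wn m o a ρ = ENNReal.ofReal (ev_tail m o a ρ) := by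
  unfold hf_wn ev_tail
  exact (ofReal_integral_eq_lintegral_ofReal h.tail
    (Filter.Eventually.of_forall fun x => mul_nonneg (Real.exp_pos _).le (sq_nonneg _))).symm

/-- induction on `j` (`Function.iterate_succ_apply'`, `hf3_res_nice hS.finite hS.quad`). -/
theorem ev_th_nice (hS : Std m K N) (ha : GoodExp m o a) (hδ : 0 < δ) (h4 : 4 * δ * a ^ 2 ≤ 1)
    (hf : NiceDens m o a B f) (j : ℕ) : NiceDens m o a B ((resF m δ)^[j] f) := by
  induction j with
  | zero => simpa using hf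
  | succ j ih =>
    rw [Function.iterate_succ_apply']
    exact hf3_res_nice hS.finite hS.quad ha hδ h4 ih

/-- `hf2_res_wn` + `ev_th_wn_eq` for `f` and `resF m δ f` (`hf3_res_nice`), `hf3_nice_memLp`, `ENNReal.ofReal_le_ofReal_iff`,
`ENNReal.ofReal_mul`. -/
theorem ev_th_tail_step (hS : Std m K N) (ha : GoodExp m o a) (hδ : 0 < δ) (h4 : 4 * δ * a ^ 2 ≤ 1)
    (hf : NiceDens m o a B f) :
    ev_tail m o a (resF m δ f) ≤ Real.exp (8 * a ^ 2 * δ) * ev_tail m o a f := by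
  have h1 := hf2_res_wn hS.finite hS.quad hδ ha.1.le h4 (hf3_nice_memLp ha.1.le hf) o
  rw [ev_th_wn_eq hf, ev_th_wn_eq (hf3_res_nice hS.finite hS.quad ha hδ h4 hf),
    ← ENNReal.ofReal_mul (Real.exp_pos _).le] at h1
  exact (ENNReal.ofReal_le_ofReal_iff
    (mul_nonneg (Real.exp_pos _).le (ev_th_tail_nonneg m o a f))).1 h1

/-- induction on `j` with `ev_th_tail_step`, `ev_th_nice`, `Real.exp_add`. -/
theorem ev_th_tail (hS : Std m K N) (ha : GoodExp m o a) (hδ : 0 < δ) (h4 : 4 * δ * a ^ 2 ≤ 1)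
    (hf : NiceDens m o a B f) (j : ℕ) :
    ev_tail m o a ((resF m δ)^[j] f) ≤ Real.exp (8 * a ^ 2 * (δ * j)) * ev_tail m o a f := by
  induction j with
  | zero => simp
  | succ j ih =>
    rw [Function.iterate_succ_apply']
    have h1 := ev_th_tail_step hS ha hδ h4 (ev_th_nice hS ha hδ h4 hf j)
    have h2 : Real.exp (8 * a ^ 2 * (δ * ((j + 1 : ℕ) : ℝ)))
        = Real.exp (8 * a ^ 2 * δ) * Real.exp (8 * a ^ 2 * (δ * (j : ℝ))) := by
      rw [← Real.exp_add]
      congr 1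
      push_cast
      ring
    rw [h2, mul_assoc]
    exact h1.trans (mul_le_mul_of_nonneg_left ih (Real.exp_pos _).le)

/-! ### T2: one step for the pair -/

/-- `ev_two'` for `(f, σ = g)`:  `q E - D ≤ δ (ent g - ent Jf)`, `E = W²(Jf, g)/2`;
`ev_two'` for `(g, σ = Jf)` (nice by `hf3_res_nice`) and `ot_W2sq_comm`:  `q D' - E ≤ δ (ent Jf - ent Jg)`.
First `+ q ·` second (`q = 1 + K δ > 0`), `ring`/`nlinarith`.   `2 δ a² < 1` follows from `h4`. -/
theorem ev_th_step (hS : Std m K N) (ha : GoodExp m o a) (hδ : 0 < δ) (h4 : 4 * δ * a ^ 2 ≤ 1)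
    (hδK : 0 < 1 + K * δ) (hf : NiceDens m o a B f) (hg : NiceDens m o a B g) :
    (1 + K * δ) ^ 2 * (W2sqR (dens m (resF m δ f)) (dens m (resF m δ g)) / 2)
        - W2sqR (dens m f) (dens m g) / 2
      ≤ δ * (entF m g - entF m (resF m δ g))
        + K * δ ^ 2 * (entF m (resF m δ f) - entF m (resF m δ g)) := by
  have hδa : 4 * δ * a ^ 2 ≤ 1 := h4
  have hJf : NiceDens m o a B (resF m δ f) := hf3_res_nice hS.finite hS.quad ha hδ h4 hf
  have h1 := ev_two' hS ha hf hδ hδa hδK hg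
  have h2 := ev_two' hS ha hg hδ hδa hδK hJf
  have hc1 : W2sqR (dens m (resF m δ g)) (dens m (resF m δ f))
      = W2sqR (dens m (resF m δ f)) (dens m (resF m δ g)) := by
    unfold W2sqR; rw [ot_W2sq_comm]
  have hc2 : W2sqR (dens m g) (dens m (resF m δ f)) = W2sqR (dens m (resF m δ f)) (dens m g) := by
    unfold W2sqR; rw [ot_W2sq_comm]
  rw [hc1, hc2] at h2
  have h3 := mul_le_mul_of_nonneg_left h2 hδK.le
  nlinarith [h1, h3]

/-! ### T3: real sequences -/

/-- **discrete Gronwall without Abel summation.**  `A_j := D_j + δ (e_j + C) ≥ D_j ≥ 0`.  Since `q² ≤ 1` and `e_{j+1} + C ≥ 0`: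
`q² A_{j+1} ≤ q² D_{j+1} + δ (e_{j+1} + C) ≤ D_j + δ (e_j + C) + c = A_j + c`.  Induction on `k ≤ n`: `q^{2k} A_k ≤ A_0 + k c`
(`q^{2(k+1)} A_{k+1} = q^{2k} (q² A_{k+1}) ≤ q^{2k} A_k + q^{2k} c ≤ q^{2k} A_k + c`).  Finally `A_0 ≤ D_0 + 2 δ C`. -/
theorem ev_th_gronwall {q δ c C : ℝ} (hq0 : 0 < q) (hq1 : q ≤ 1) (hδ : 0 ≤ δ) (hc : 0 ≤ c) {D e : ℕ → ℝ} {n : ℕ}
    (hD : ∀ j, 0 ≤ D j) (he : ∀ j ≤ n, |e j| ≤ C)
    (h : ∀ j < n, q ^ 2 * D (j + 1) - D j ≤ δ * (e j - e (j + 1)) + c) :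
    q ^ (2 * n) * D n ≤ D 0 + 2 * δ * C + n * c := by
  have hq2 : q ^ 2 ≤ 1 := pow_le_one₀ hq0.le hq1
  have key : ∀ k ≤ n, q ^ (2 * k) * (D k + δ * (e k + C)) ≤ D 0 + δ * (e 0 + C) + k * c := by
    intro k
    induction k with
    | zero => intro _; simp
    | succ k ih =>
      intro hk
      have ihk := ih (by omega)
      have hstep := h k (by omega)
      have he1 := abs_le.1 (he (k + 1) hk)
      have hA : q ^ 2 * (D (k + 1) + δ * (e (k + 1) + C)) ≤ D k + δ * (e k + C) + c := by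
        have h0 : 0 ≤ δ * (e (k + 1) + C) := mul_nonneg hδ (by linarith [he1.1])
        have h1 : q ^ 2 * (δ * (e (k + 1) + C)) ≤ 1 * (δ * (e (k + 1) + C)) :=
          mul_le_mul_of_nonneg_right hq2 h0
        nlinarith
      have hqk : 0 ≤ q ^ (2 * k) := by positivity
      have hqk1 : q ^ (2 * k) ≤ 1 := pow_le_one₀ hq0.le hq1
      calc q ^ (2 * (k + 1)) * (D (k + 1) + δ * (e (k + 1) + C))
          = q ^ (2 * k) * (q ^ 2 * (D (k + 1) + δ * (e (k + 1) + C))) := by ring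
        _ ≤ q ^ (2 * k) * (D k + δ * (e k + C) + c) := mul_le_mul_of_nonneg_left hA hqk
        _ = q ^ (2 * k) * (D k + δ * (e k + C)) + q ^ (2 * k) * c := by ring
        _ ≤ (D 0 + δ * (e 0 + C) + k * c) + 1 * c :=
            add_le_add ihk (mul_le_mul_of_nonneg_right hqk1 hc)
        _ = D 0 + δ * (e 0 + C) + ((k + 1 : ℕ) : ℝ) * c := by push_cast; ring
  have hn := key n le_rfl
  have hen := abs_le.1 (he n le_rfl)
  have he0 := abs_le.1 (he 0 (Nat.zero_le n))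
  have hqn : 0 ≤ q ^ (2 * n) := by positivity
  have h0 : 0 ≤ δ * (e n + C) := mul_nonneg hδ (by linarith [hen.1])
  have h1 : q ^ (2 * n) * D n ≤ q ^ (2 * n) * (D n + δ * (e n + C)) :=
    mul_le_mul_of_nonneg_left (by linarith) hqn
  have h2 : δ * (e 0 + C) ≤ δ * (2 * C) := mul_le_mul_of_nonneg_left (by linarith [he0.2]) hδ
  linarith

/-- `Real.tendsto_one_add_div_pow_exp` along `n + 1`, squared (`(1 + K t/(n+1))^{2(n+1)} = ((1 + (K t)/(n+1))^{n+1})²`, `Real.exp_add`/`two_mul`). -/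
theorem ev_th_pow_tendsto (K t : ℝ) :
    Tendsto (fun n : ℕ => (1 + K * (t / ((n : ℝ) + 1))) ^ (2 * (n + 1))) atTop (𝓝 (Real.exp (2 * K * t))) := by
  have h1 := (Real.tendsto_one_add_div_pow_exp (K * t)).comp (tendsto_add_atTop_nat 1)
  have h2 := h1.pow 2
  have e : Real.exp (K * t) ^ 2 = Real.exp (2 * K * t) := by
    rw [← Real.exp_nat_mul]
    congr 1
    push_cast
    ring
  rw [e] at h2
  refine h2.congr fun n => ?_
  simp only [Function.comp]
  rw [← pow_mul, mul_comm (n + 1) 2]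
  congr 2
  push_cast
  ring

/-- `t/(n+1) → 0`. -/
theorem ev_th_step_tendsto (t : ℝ) : Tendsto (fun n : ℕ => t / ((n : ℝ) + 1)) atTop (𝓝 0) := by
  have h1 := (tendsto_one_div_add_atTop_nhds_zero_nat (𝕜 := ℝ)).const_mul t
  rw [mul_zero] at h1
  refine h1.congr fun n => ?_
  ring

/-- (`liminf_le_liminf`, `Tendsto.liminf_eq`, `ENNReal.continuous_ofReal`.) -/
theorem ev_th_le_of_liminf {x : ℝ≥0∞} {w : ℕ → ℝ≥0∞} {b : ℕ → ℝ} {b' : ℝ} (h1 : x ≤ liminf w atTop)
    (h2 : ∀ᶠ n in atTop, w n ≤ ENNReal.ofReal (b n)) (h3 : Tendsto b atTop (𝓝 b')) :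
    x ≤ ENNReal.ofReal b' := by
  have h4 : Tendsto (fun n => ENNReal.ofReal (b n)) atTop (𝓝 (ENNReal.ofReal b')) :=
    (ENNReal.continuous_ofReal.tendsto b').comp h3
  calc x ≤ liminf w atTop := h1
    _ ≤ liminf (fun n => ENNReal.ofReal (b n)) atTop := liminf_le_liminf h2
    _ = ENNReal.ofReal b' := h4.liminf_eq

/-! ### T4: the limit -/

/-- `W2sq = ofReal W2sqR` for nice densities (`ev_W2_ne_top`, `ev_dens_prob`, `ev_nice_secondMoment`, `ENNReal.ofReal_toReal`). -/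
theorem ev_th_W2_ofReal (ha : GoodExp m o a) (hf : NiceDens m o a B f) (hg : NiceDens m o a B g) :
    W2sq (dens m f) (dens m g) = ENNReal.ofReal (W2sqR (dens m f) (dens m g)) := by
  unfold W2sqR
  rw [ENNReal.ofReal_toReal (ev_W2_ne_top ha hf (ev_dens_prob hg) (ev_nice_secondMoment ha hg))]

/-- lower semicontinuity along the exponential formula.
`u_n = (resF m (t/(n+1)))^[n+1] f` is nice with `ev_tail u_n ≤ e^{8 a² t} ev_tail f` for `n ≥ n₀` (`ev_th_nice`, `ev_th_tail`, `δ (n+1) = t`),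
`u_n → heatF m t f` in `L²` (`hf0_heat_limit`), the limit is nice (`hf3_heat_nice`); `ev_wconv_of_L2` applied to the shifted sequences
`n ↦ u_{n+n₀}`; `ot_lsc`; the `liminf` does not see the shift (`Filter.liminf_nat_add`). -/
theorem ev_th_lsc (hS : Std m K N) (ha : GoodExp m o a) (hf : NiceDens m o a B f) (hg : NiceDens m o a B g)
    (ht : 0 < t) :
    W2sq (dens m (heatF m t f)) (dens m (heatF m t g)) ≤
      liminf (fun n : ℕ => W2sq (dens m ((resF m (t / ((n : ℝ) + 1)))^[n + 1] f))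
        (dens m ((resF m (t / ((n : ℝ) + 1)))^[n + 1] g))) atTop := by
  have ha0 : 0 < a := ha.1
  -- eventually the step is small
  have hev : ∀ᶠ n : ℕ in atTop, 4 * (t / ((n : ℝ) + 1)) * a ^ 2 ≤ 1 := by
    have h1 : Tendsto (fun n : ℕ => 4 * (t / ((n : ℝ) + 1)) * a ^ 2) atTop (𝓝 (4 * 0 * a ^ 2)) :=
      ((ev_th_step_tendsto t).const_mul 4).mul_const (a ^ 2)
    have h2 : (4 * 0 * a ^ 2 : ℝ) < 1 := by norm_num
    exact (h1.eventually (gt_mem_nhds h2)).mono fun n hn => hn.le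
  obtain ⟨n₀, hn₀⟩ := eventually_atTop.1 hev
  have hpos : ∀ n : ℕ, 0 < t / ((n : ℝ) + 1) := fun n => div_pos ht (by positivity)
  have key : ∀ {h : X → ℝ}, NiceDens m o a B h →
      ot_WConv (fun n : ℕ => dens m ((resF m (t / (((n + n₀ : ℕ) : ℝ) + 1)))^[(n + n₀) + 1] h))
        (dens m (heatF m t h)) := by
    intro h hh
    refine ev_wconv_of_L2 (B := B) (T := Real.exp (8 * a ^ 2 * t) * ev_tail m o a h) hS.finite ha
      (fun n => ev_th_nice hS ha (hpos _) (hn₀ _ (Nat.le_add_left _ _)) hh _) (fun n => ?_)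
      (hf3_heat_nice hS.finite hS.quad ha ht.le hh) ?_
    · have h1 := ev_th_tail hS ha (hpos (n + n₀)) (hn₀ _ (Nat.le_add_left _ _)) hh ((n + n₀) + 1)
      have h2 : t / (((n + n₀ : ℕ) : ℝ) + 1) * (((n + n₀) + 1 : ℕ) : ℝ) = t := by
        have h3 : (((n + n₀ : ℕ) : ℝ) + 1) ≠ 0 := by positivity
        push_cast
        push_cast at h3
        field_simp
      rw [h2] at h1
      exact h1
    · have h1 := hf0_heat_limit hS.finite hS.quad ht (hf3_nice_memLp ha0.le hh)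
      exact h1.comp (tendsto_add_atTop_nat n₀)
  have hl := ot_lsc
    (μs := fun n : ℕ => dens m ((resF m (t / (((n + n₀ : ℕ) : ℝ) + 1)))^[(n + n₀) + 1] f))
    (νs := fun n : ℕ => dens m ((resF m (t / (((n + n₀ : ℕ) : ℝ) + 1)))^[(n + n₀) + 1] g))
    (fun n => ev_dens_prob (ev_th_nice hS ha (hpos _) (hn₀ _ (Nat.le_add_left _ _)) hf _))
    (fun n => ev_dens_prob (ev_th_nice hS ha (hpos _) (hn₀ _ (Nat.le_add_left _ _)) hg _))
    (ev_dens_prob (hf3_heat_nice hS.finite hS.quad ha ht.le hf))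
    (ev_dens_prob (hf3_heat_nice hS.finite hS.quad ha ht.le hg)) (key hf) (key hg)
  refine hl.trans (le_of_eq ?_)
  exact Filter.liminf_nat_add (fun n : ℕ => W2sq (dens m ((resF m (t / ((n : ℝ) + 1)))^[n + 1] f))
        (dens m ((resF m (t / ((n : ℝ) + 1)))^[n + 1] g))) n₀

/-- the case `t = 0` (`hf0_heat_of_nonpos`, `hf3_nice_memLp`, `ev_dens_congr`; `exp 0 = 1`). -/
theorem ev_th_zero (ha : GoodExp m o a) (hf : NiceDens m o a B f) (hg : NiceDens m o a B g) :
    W2sq (dens m (heatF m 0 f)) (dens m (heatF m 0 g)) ≤ W2sq (dens m f) (dens m g) := by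
  rw [ev_dens_congr (hf0_heat_of_nonpos le_rfl (hf3_nice_memLp ha.1.le hf)),
    ev_dens_congr (hf0_heat_of_nonpos le_rfl (hf3_nice_memLp ha.1.le hg))]

end Claimed.Agent.R210.EV.Th
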