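/-
Row 210 (S0432), layer EV, block EV3: W₂-CONTRACTION of the heat flow.      Architect helper948; sub-architect of this block helper898.
Glue only: the leaves are in `EV/Th.lean`.
-/
import Claimed.Agent.R210.EV.Th

set_option autoImplicit false

open Claims.C0366 Claims.C0366.WeakHessian
open Set Filter MeasureTheory
open scoped ENNReal NNReal Topology

namespace Claimed.Agent.R210.EV.Three

open Claimed.Agent.R210.Defs Claimed.Agent.R210.Defs2 Claimed.Agent.R210.EV.Defs Claimed.Agent.R210.EV.Basic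
  Claimed.Agent.R210.EV.Th

variable {X : Type*} [MetricSpace X] [MeasurableSpace X] [BorelSpace X]
  [CompleteSpace X] [TopologicalSpace.SeparableSpace X] [ProperSpace X]
variable {m : Measure X} {K N a B t : ℝ} {o : X} {f g : X → ℝ}

/-- the discrete estimate after `n + 1` steps of size `t/(n+1)`. -/
theorem ev_three_discrete (hS : Std m K N) (ha : GoodExp m o a) (hf : NiceDens m o a B f)
    (hg : NiceDens m o a B g) (ht : 0 < t) :
    ∃ C : ℝ, 0 ≤ C ∧ ∀ n : ℕ, 4 * (t / ((n : ℝ) + 1)) * a ^ 2 ≤ 1 → 0 < 1 + K * (t / ((n : ℝ) + 1)) →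
      (1 + K * (t / ((n : ℝ) + 1))) ^ (2 * (n + 1)) *
          (W2sqR (dens m ((resF m (t / ((n : ℝ) + 1)))^[n + 1] f))
            (dens m ((resF m (t / ((n : ℝ) + 1)))^[n + 1] g)) / 2)
        ≤ W2sqR (dens m f) (dens m g) / 2 + 2 * (t / ((n : ℝ) + 1)) * C
          + -K * t * (t / ((n : ℝ) + 1)) * (2 * C) := by
  obtain ⟨C, hC0, hC⟩ := ev_ent_abs_le ha B
    (Real.exp (8 * a ^ 2 * t) * max (ev_tail m o a f) (ev_tail m o a g))
  refine ⟨C, hC0, ?_⟩
  intro n h4 hq
  have hn : (0 : ℝ) < (n : ℝ) + 1 := by positivity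
  set δ : ℝ := t / ((n : ℝ) + 1) with hδdef
  have hδ : 0 < δ := div_pos ht hn
  have hδn : δ * ((n : ℝ) + 1) = t := by rw [hδdef]; field_simp
  have hK : K < 0 := hS.K_neg
  -- entropy bounds
  have hent : ∀ (u : X → ℝ), NiceDens m o a B u → ev_tail m o a u ≤ max (ev_tail m o a f) (ev_tail m o a g) →
      ∀ j ≤ n + 1, |entF m ((resF m δ)^[j] u)| ≤ C := by
    intro u hu hle j hj
    refine hC _ (ev_th_nice hS ha hδ h4 hu j) ?_
    refine (ev_th_tail hS ha hδ h4 hu j).trans ?_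
    have h1 : δ * (j : ℝ) ≤ t := by
      rw [← hδn]
      have : (j : ℝ) ≤ (n : ℝ) + 1 := by exact_mod_cast hj
      exact mul_le_mul_of_nonneg_left this hδ.le
    have h2 : Real.exp (8 * a ^ 2 * (δ * j)) ≤ Real.exp (8 * a ^ 2 * t) :=
      Real.exp_le_exp.2 (mul_le_mul_of_nonneg_left h1 (by positivity))
    exact mul_le_mul h2 hle (ev_th_tail_nonneg m o a u) (Real.exp_pos _).le
  have hentf := hent f hf (le_max_left _ _)
  have hentg := hent g hg (le_max_right _ _)
  have key := ev_th_gronwall (q := 1 + K * δ) (δ := δ) (c := -K * δ ^ 2 * (2 * C)) (C := C)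
    (D := fun j => W2sqR (dens m ((resF m δ)^[j] f)) (dens m ((resF m δ)^[j] g)) / 2)
    (e := fun j => entF m ((resF m δ)^[j] g)) (n := n + 1) hq
    (by nlinarith) hδ.le (by have : 0 ≤ -K := by linarith
                             positivity)
    (fun j => div_nonneg ENNReal.toReal_nonneg (by norm_num)) hentg
    (by
      intro j hj
      have hs := ev_th_step hS ha hδ h4 hq (ev_th_nice hS ha hδ h4 hf j) (ev_th_nice hS ha hδ h4 hg j)
      simp only [Function.iterate_succ_apply']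
      refine hs.trans ?_
      have e1 := abs_le.1 (hentf (j + 1) hj)
      have e2 := abs_le.1 (hentg (j + 1) hj)
      simp only [Function.iterate_succ_apply'] at e1 e2
      have hx : -(2 * C) ≤ entF m (resF m δ ((resF m δ)^[j] f)) - entF m (resF m δ ((resF m δ)^[j] g)) := by
        linarith [e1.1, e2.2]
      have hKδ : K * δ ^ 2 ≤ 0 := mul_nonpos_of_nonpos_of_nonneg hK.le (by positivity)
      have := mul_le_mul_of_nonpos_left hx hKδ
      linarith)
  simp only [Function.iterate_zero, id] at key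
  refine key.trans (le_of_eq ?_)
  have : ((n + 1 : ℕ) : ℝ) * (-K * δ ^ 2 * (2 * C)) = -K * t * δ * (2 * C) := by
    rw [← hδn]; push_cast; ring
  rw [this]

/-- **EV3.** -/
theorem ev_three (hS : Std m K N) (ha : GoodExp m o a) (hf : NiceDens m o a B f) (hg : NiceDens m o a B g)
    (ht : 0 ≤ t) :
    W2sq (dens m (heatF m t f)) (dens m (heatF m t g))
      ≤ ENNReal.ofReal (Real.exp (-2 * K * t)) * W2sq (dens m f) (dens m g) := by
  rcases ht.eq_or_lt with rfl | ht
  · simpa using ev_th_zero ha hf hg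
  obtain ⟨C, hC0, hC⟩ := ev_three_discrete hS ha hf hg ht
  have hδ0 := ev_th_step_tendsto t
  have hpow := ev_th_pow_tendsto K t
  set W0 : ℝ := W2sqR (dens m f) (dens m g) with hW0
  -- the upper bounds
  let b : ℕ → ℝ := fun n => 2 * (W0 / 2 + 2 * (t / ((n : ℝ) + 1)) * C + -K * t * (t / ((n : ℝ) + 1)) * (2 * C)) /
    (1 + K * (t / ((n : ℝ) + 1))) ^ (2 * (n + 1))
  have hb : Tendsto b atTop (𝓝 (2 * (W0 / 2 + 2 * 0 * C + -K * t * 0 * (2 * C)) / Real.exp (2 * K * t))) := by
    refine Tendsto.div ?_ hpow (Real.exp_pos _).ne'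
    refine Tendsto.const_mul 2 ?_
    refine Tendsto.add (Tendsto.add tendsto_const_nhds ?_) ?_
    · exact (hδ0.const_mul 2).mul_const C
    · exact (hδ0.const_mul (-K * t)).mul_const (2 * C)
  have hev1 : ∀ᶠ n : ℕ in atTop, 4 * (t / ((n : ℝ) + 1)) * a ^ 2 ≤ 1 := by
    have : Tendsto (fun n : ℕ => 4 * (t / ((n : ℝ) + 1)) * a ^ 2) atTop (𝓝 (4 * 0 * a ^ 2)) :=
      (hδ0.const_mul 4).mul_const _
    exact (this.eventually (ge_mem_nhds (by norm_num))).mono fun n hn => hn
  have hev2 : ∀ᶠ n : ℕ in atTop, 0 < 1 + K * (t / ((n : ℝ) + 1)) := by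
    have : Tendsto (fun n : ℕ => 1 + K * (t / ((n : ℝ) + 1))) atTop (𝓝 (1 + K * 0)) :=
      (hδ0.const_mul K).const_add 1
    exact this.eventually (lt_mem_nhds (by norm_num))
  have h2 : ∀ᶠ n : ℕ in atTop, W2sq (dens m ((resF m (t / ((n : ℝ) + 1)))^[n + 1] f))
      (dens m ((resF m (t / ((n : ℝ) + 1)))^[n + 1] g)) ≤ ENNReal.ofReal (b n) := by
    filter_upwards [hev1, hev2] with n h4 hq
    have hn : (0 : ℝ) < (n : ℝ) + 1 := by positivity
    have hδ : 0 < t / ((n : ℝ) + 1) := div_pos ht hn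
    rw [ev_th_W2_ofReal ha (ev_th_nice hS ha hδ h4 hf (n + 1)) (ev_th_nice hS ha hδ h4 hg (n + 1))]
    refine ENNReal.ofReal_le_ofReal ?_
    have hp : 0 < (1 + K * (t / ((n : ℝ) + 1))) ^ (2 * (n + 1)) := pow_pos hq _
    rw [le_div_iff₀ hp]
    have := hC n h4 hq
    linarith
  have h := ev_th_le_of_liminf (ev_th_lsc hS ha hf hg ht) h2 hb
  refine h.trans (le_of_eq ?_)
  rw [ev_th_W2_ofReal ha hf hg, ← ENNReal.ofReal_mul (Real.exp_pos _).le]
  congr 1
  have : Real.exp (-2 * K * t) = (Real.exp (2 * K * t))⁻¹ := by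
    rw [← Real.exp_neg]; congr 1; ring
  rw [this, ← hW0]
  field_simp
  ring

end Claimed.Agent.R210.EV.Three
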