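/-
Row 210 (S0432), layer EV (discrete EVI for the L² resolvent step, W₂-contraction of the heat flow): INTERFACE.
Architect of the layer: helper948.   Consumers (BE) import this file only.

Setting: `Std m K N` (so `K < 0`), `X` complete, separable, proper.
* `Defs2.NiceDens m o a B ρ`, `Defs2.GoodExp m o a` as in `R210/Defs2.lean`;
  `EV.Defs.ev_BS m o R B ρ` : `ρ` a.e. measurable, `0 ≤ ρ ≤ B` a.e., `∫ ρ = 1`, `ρ = 0` a.e. outside of `closedBall o R`.
* `ev_contraction_nice` : EV3, `W2sq (H_t f m) (H_t g m) ≤ e^{-2Kt} W2sq (f m) (g m)` for nice densities `f, g` (`t ≥ 0`, `H_t = heatF m t`).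
* `ev_contraction`      : the same for bounded densities with bounded support (no exponent needed).
* `ev_discrete_evi`     : EV2', the discrete EVI for `resF m δ`.
-/
import Claimed.Agent.R210.EV.Basic
import Claimed.Agent.R210.EV.Three

set_option autoImplicit false

open Claims.C0366 Claims.C0366.WeakHessian
open Set Filter MeasureTheory
open scoped ENNReal NNReal Topology

namespace Claimed.Agent.R210.EV.Ifc

open Claimed.Agent.R210.Defs Claimed.Agent.R210.Defs2 Claimed.Agent.R210.EV.Defs

variable {X : Type*} [MetricSpace X] [MeasurableSpace X] [BorelSpace X]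
  [CompleteSpace X] [TopologicalSpace.SeparableSpace X] [ProperSpace X]
/-- **EV3**: `W₂²(H_t f m, H_t g m) ≤ e^{-2Kt} W₂²(f m, g m)` for nice densities. -/
theorem ev_contraction_nice {m : Measure X} {K N : ℝ} (hS : Std m K N) {o : X} {a B B' t : ℝ}
    (ha : GoodExp m o a) {f g : X → ℝ} (hf : NiceDens m o a B f) (hg : NiceDens m o a B' g)
    (ht : 0 ≤ t) :
    W2sq (dens m (heatF m t f)) (dens m (heatF m t g)) ≤
      ENNReal.ofReal (Real.exp (-2 * K * t)) * W2sq (dens m f) (dens m g) :=
  Three.ev_three hS ha (Basic.ev_nice_mono hf (le_max_left B B')) (Basic.ev_nice_mono hg (le_max_right B B')) ht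

/-- **EV3** for bounded densities with bounded support. -/
theorem ev_contraction {m : Measure X} {K N : ℝ} (hS : Std m K N) {o : X} {R R' B B' t : ℝ}
    {f g : X → ℝ} (hf : ev_BS m o R B f) (hg : ev_BS m o R' B' g) (ht : 0 ≤ t) :
    W2sq (dens m (heatF m t f)) (dens m (heatF m t g)) ≤
      ENNReal.ofReal (Real.exp (-2 * K * t)) * W2sq (dens m f) (dens m g) := by
  obtain ⟨a, ha⟩ := Need.ev_need_goodExp hS o
  exact ev_contraction_nice hS ha (Basic.ev_cpt_nice hS.finite hf a) (Basic.ev_cpt_nice hS.finite hg a) ht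

/-- **EV2'**: discrete EVI for one step of the `L²` resolvent (nice observer `n`). -/
theorem ev_discrete_evi {m : Measure X} {K N : ℝ} (hS : Std m K N) {o : X} {a B B' δ : ℝ}
    (ha : GoodExp m o a) {f n : X → ℝ} (hf : NiceDens m o a B f) (hn : NiceDens m o a B' n)
    (hδ : 0 < δ) (hδa : 4 * δ * a ^ 2 ≤ 1) (hδK : 0 < 1 + K * δ) :
    W2sqR (dens m (resF m δ f)) (dens m n) / 2 - W2sqR (dens m f) (dens m n) / 2 ≤
      δ * (entF m n - entF m (resF m δ f) - K / 2 * W2sqR (dens m (resF m δ f)) (dens m n)) := by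
  have h := Two.ev_two' hS ha hf hδ hδa hδK hn
  linarith

end Claimed.Agent.R210.EV.Ifc
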